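import Vale.Agent.P172.R2.H783.Prod

/-!
# P172: the additive gap passes to spaces whose finite subsets are approximated by subsets of
`ℓ²`-products (helper783)
-/

namespace Vale.Agent.P172.H783

open Vale.Agent.P172

universe u v w

open Finset Filter Topology

section Conv

variable {X : Type u} [MetricSpace X] {V : Type} [Fintype V] [Nonempty V]

/-- the variance is at most the mean of every strongly convex nonnegative function -/
theorem var_le_of_conv (f : V → X) {b : X}
    (hb : IsBar (fun _ : V => (1 : ℝ) / Fintype.card V) f b) {φ : X → ℝ} (hφ0 : ∀ x, 0 ≤ φ x)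
    (hconv : ∀ x y : X, ∀ t : ℝ, 0 < t → t < 1 → ∃ z, φ z ≤
      (1 - t) * φ x + t * φ y - t * (1 - t) * dist x y ^ 2) :
    E1 (fun v => dist b (f v) ^ 2) ≤ E1 fun v => φ (f v) := by
  classical
  obtain ⟨v₀⟩ := (inferInstance : Nonempty V)
  have hne : Nonempty X := ⟨f v₀⟩
  obtain ⟨m, hm⟩ : ∃ m, m = ⨅ x, φ x := ⟨_, rfl⟩
  have hbdd : BddBelow (Set.range φ) := ⟨0, by rintro _ ⟨x, rfl⟩; exact hφ0 x⟩
  have hmle : ∀ x, m ≤ φ x := fun x => hm ▸ ciInf_le hbdd x
  have key : ∀ t : ℝ, 0 < t → t < 1 →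
      (1 - t) * E1 (fun v => dist b (f v) ^ 2) ≤ (E1 fun v => φ (f v)) + t := by
    intro t ht0 ht1
    obtain ⟨x, hx⟩ : ∃ x, φ x < m + t ^ 2 := by
      rw [hm]
      exact exists_lt_of_ciInf_lt (by linarith [sq_pos_of_pos ht0])
    have h1 : ∀ v, (1 - t) * dist x (f v) ^ 2 ≤ φ (f v) + t := by
      intro v
      obtain ⟨z, hz⟩ := hconv x (f v) t ht0 ht1
      have h2 := hmle z
      have h3 := hφ0 x
      have h4 : t * ((1 - t) * dist x (f v) ^ 2) ≤ t * (φ (f v) + t) := by nlinarith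
      exact le_of_mul_le_mul_left h4 ht0
    have h2 := E1_mono h1
    rw [E1_mul, E1_add, E1_const] at h2
    have h3 : E1 (fun v => dist b (f v) ^ 2) ≤ E1 fun v => dist x (f v) ^ 2 := by
      have h := bar_E1 hb x
      simp only [dist_comm (f _) x] at h
      have := sq_nonneg (dist b x)
      linarith
    have h4 := mul_le_mul_of_nonneg_left h3 (by linarith : 0 ≤ 1 - t)
    linarith
  obtain ⟨r, hr⟩ : ∃ r, r = E1 (fun v => dist b (f v) ^ 2) := ⟨_, rfl⟩
  obtain ⟨S, hS'⟩ : ∃ S, S = E1 fun v => φ (f v) := ⟨_, rfl⟩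
  rw [← hr, ← hS'] at key ⊢
  have hr0 : 0 ≤ r := by
    rw [hr]
    exact E1_nonneg fun _ => sq_nonneg _
  by_contra hcon
  push Not at hcon
  obtain ⟨t, ht⟩ : ∃ t : ℝ, t = min (1 / 2) ((r - S) / (2 * (r + 1))) := ⟨_, rfl⟩
  have ht0 : 0 < t := by
    rw [ht]
    refine lt_min (by norm_num) (div_pos (by linarith) (by linarith))
  have ht1 : t < 1 := by
    rw [ht]
    exact (min_le_left _ _).trans_lt (by norm_num)
  have h1 := key t ht0 ht1
  have h2 : t * (2 * (r + 1)) ≤ r - S := by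
    have h3 : t ≤ (r - S) / (2 * (r + 1)) := by
      rw [ht]
      exact min_le_right _ _
    rwa [le_div_iff₀ (by linarith)] at h3
  nlinarith

theorem le_of_forall_mul {r R : ℝ} (h : ∀ s : ℝ, 0 < s → r ≤ (1 + s) * R) : r ≤ R := by
  by_contra hcon
  push Not at hcon
  rcases le_or_gt R 0 with hR | hR
  · have := h 1 one_pos
    linarith
  · have h1 := h ((r - R) / (2 * R)) (div_pos (by linarith) (by linarith))
    have e : (1 + (r - R) / (2 * R)) * R = R + (r - R) / 2 := by
      field_simp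
    rw [e] at h1
    linarith

end Conv

section Level

variable {X : Type u} {I : Type v} {Y : I → Type w} [∀ i, MetricSpace (Y i)]
  {π : ∀ i, X → Y i} {V : Type} [Fintype V] [Nonempty V]

/-- one approximating product: the function `ρ`, squared distance to the barycentre -/
theorem one_level (hY : ∀ i, Cat (Y i)) (f : V → X) (a : ∀ i, Y i)
    (ha : ∀ i, IsBar (fun _ : V => (1 : ℝ) / Fintype.card V) (fun v => π i (f v)) (a i))
    {T : Set X} {S : X → X → ℝ}
    (hS : ∀ x ∈ T, ∀ y ∈ T, HasSum (fun i => dist (π i x) (π i y) ^ 2) (S x y))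
    (hf : ∀ v, f v ∈ T) :
    ∃ ρ : X → ℝ, (∀ x ∈ T, HasSum (fun i => dist (a i) (π i x) ^ 2) (ρ x)) ∧
      (∀ x ∈ T, ρ x ∈ Set.Icc 0 (E1 fun v => S (f v) x)) ∧
      ∀ x ∈ T, ∀ y ∈ T, ∀ z ∈ T, ∀ t s : ℝ, 0 < t → t < 1 → 0 < s →
        ρ z ≤ (1 + s) * ((1 - t) * ρ x + t * ρ y - t * (1 - t) * S x y) +
          (1 + 1 / s) * ((1 - t) * S z x + t * S z y - t * (1 - t) * S x y) := by
  classical
  have hle : ∀ x ∈ T, ∀ i, dist (a i) (π i x) ^ 2 ≤ E1 fun v => dist (π i (f v)) (π i x) ^ 2 := by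
    intro x _ i
    have h := bar_E1 (ha i) (π i x)
    have h2 : 0 ≤ E1 (fun v => dist (a i) (π i (f v)) ^ 2) := E1_nonneg fun _ => sq_nonneg _
    linarith
  have hE : ∀ x ∈ T, HasSum (fun i => E1 fun v => dist (π i (f v)) (π i x) ^ 2)
      (E1 fun v => S (f v) x) := fun x hx => hasSum_E1 fun v => hS _ (hf v) _ hx
  have hsum : ∀ x ∈ T, HasSum (fun i => dist (a i) (π i x) ^ 2)
      (∑' i, dist (a i) (π i x) ^ 2) := fun x hx =>
    (Summable.of_nonneg_of_le (fun i => sq_nonneg _) (hle x hx) (hE x hx).summable).hasSum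
  refine ⟨fun x => ∑' i, dist (a i) (π i x) ^ 2, hsum, fun x hx => ⟨?_, ?_⟩, ?_⟩
  · exact (hsum x hx).nonneg fun i => sq_nonneg _
  · exact hasSum_le (hle x hx) (hsum x hx) (hE x hx)
  · intro x hx y hy z hz t s ht0 ht1 hs
    have h1 := ((((hsum x hx).mul_left (1 - t)).add ((hsum y hy).mul_left t)).sub
      ((hS x hx y hy).mul_left (t * (1 - t)))).mul_left (1 + s)
    have h2 := ((((hS z hz x hx).mul_left (1 - t)).add ((hS z hz y hy).mul_left t)).sub
      ((hS x hx y hy).mul_left (t * (1 - t)))).mul_left (1 + 1 / s)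
    refine hasSum_le (fun i => ?_) (hsum z hz) (h1.add h2)
    obtain ⟨m, hm⟩ := hY i (π i x) (π i y) t ⟨ht0.le, ht1.le⟩
    have h3 := hm (a i)
    have h4 := hm (π i z)
    have h5 := dist_triangle (a i) m (π i z)
    rw [dist_comm m (π i z)] at h5
    have h6 : dist (a i) (π i z) ^ 2 ≤ (1 + s) * dist (a i) m ^ 2 +
        (1 + 1 / s) * dist (π i z) m ^ 2 := by
      have h7 : dist (a i) (π i z) ^ 2 ≤ (dist (a i) m + dist (π i z) m) ^ 2 :=
        pow_le_pow_left₀ dist_nonneg h5 2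
      have e : (1 + s) * dist (a i) m ^ 2 + (1 + 1 / s) * dist (π i z) m ^ 2 -
          (dist (a i) m + dist (π i z) m) ^ 2 =
          1 / s * (s * dist (a i) m - dist (π i z) m) ^ 2 := by
        field_simp
        ring
      have : 0 ≤ 1 / s * (s * dist (a i) m - dist (π i z) m) ^ 2 := by positivity
      linarith
    have h8 := mul_le_mul_of_nonneg_left h3 (by linarith : 0 ≤ 1 + s)
    have h9 := mul_le_mul_of_nonneg_left h4 (by positivity : 0 ≤ 1 + 1 / s)
    linarith

end Level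

/-- **the additive gap passes to spaces finitely approximated by `ℓ²`-products** -/
theorem gap_approx {X : Type u} [MetricSpace X] (hX : Cat X) {c ε : ℝ} (hc : 0 ≤ c)
    (hε : ε ≤ 1 / 20)
    (hA : ∀ (F : Finset X) (η : ℝ), 0 < η → ∃ (I : Type v) (Y : I → Type w)
      (_ : ∀ i, MetricSpace (Y i)) (π : ∀ i, X → Y i), (∀ i, CompleteSpace (Y i)) ∧
      (∀ i, Cat (Y i)) ∧ (∀ i, Gap (Y i) c ε) ∧ ∀ x ∈ F, ∀ y ∈ F, ∃ d : ℝ, 0 ≤ d ∧
        |d - dist x y| ≤ η ∧ HasSum (fun i => dist (π i x) (π i y) ^ 2) (d ^ 2)) :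
    Gap X c ε := by
  classical
  intro V _ adj p hQR f₁ f₂ b₁ b₂ hb₁ hb₂
  have Q := hQR.qf hε
  have : Nonempty V := by
    have h := Q.n0
    exact Fintype.card_pos_iff.mp (by exact_mod_cast h)
  have hw1 : ∑ _v : V, (1 : ℝ) / Fintype.card V = 1 := by
    have hV : (Fintype.card V : ℝ) ≠ 0 := (card_pos' (V := V)).ne'
    rw [Finset.sum_const, Finset.card_univ, nsmul_eq_mul]
    field_simp
  have hw0 : ∀ _v : V, (0 : ℝ) ≤ 1 / Fintype.card V := fun _ => by positivity
  choose I Y mY π hC hY hG hd using fun j : Finset X × ℕ =>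
    hA j.1 (1 / ((j.2 : ℝ) + 1)) (by positivity)
  -- squared distances in the products
  obtain ⟨S, hSd⟩ : ∃ S : Finset X × ℕ → X → X → ℝ,
      ∀ j x y, S j x y = ∑' i, dist (π j i x) (π j i y) ^ 2 := ⟨_, fun _ _ _ => rfl⟩
  have hS : ∀ j, ∀ x ∈ j.1, ∀ y ∈ j.1, HasSum (fun i => dist (π j i x) (π j i y) ^ 2)
      (S j x y) ∧ |√(S j x y) - dist x y| ≤ 1 / ((j.2 : ℝ) + 1) := by
    intro j x hx y hy
    obtain ⟨d, h0, h1, h2⟩ := hd j x hx y hy
    have h3 : S j x y = d ^ 2 := by rw [hSd, h2.tsum_eq]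
    rw [h3, Real.sqrt_sq h0]
    exact ⟨h2, h1⟩
  have hS0 : ∀ j x y, 0 ≤ S j x y := by
    intro j x y
    rw [hSd]
    exact tsum_nonneg fun i => sq_nonneg _
  -- the filter
  have hev : ∀ F : Finset X, ∀ᶠ j : Finset X × ℕ in atTop, F ⊆ j.1 := by
    intro F
    filter_upwards [eventually_ge_atTop (F, 0)] with j hj
    exact hj.1
  have hone : Tendsto (fun j : Finset X × ℕ => 1 / ((j.2 : ℝ) + 1)) atTop (𝓝 0) := by
    have h1 : Tendsto (fun j : Finset X × ℕ => j.2) atTop atTop := by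
      rw [← prod_atTop_atTop_eq]
      exact tendsto_snd
    exact tendsto_one_div_add_atTop_nhds_zero_nat.comp h1
  have hlim : ∀ x y : X, Tendsto (fun j => S j x y) atTop (𝓝 (dist x y ^ 2)) := by
    intro x y
    have h1 : Tendsto (fun j => √(S j x y)) atTop (𝓝 (dist x y)) := by
      rw [tendsto_iff_dist_tendsto_zero]
      refine squeeze_zero' (Eventually.of_forall fun j => dist_nonneg) ?_ hone
      filter_upwards [hev {x, y}] with j hj
      rw [Real.dist_eq]
      exact (hS j x (hj (by simp)) y (hj (by simp))).2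
    have h2 := h1.pow 2
    refine h2.congr fun j => ?_
    exact Real.sq_sqrt (hS0 j x y)
  obtain ⟨U, hU⟩ : ∃ U : Ultrafilter (Finset X × ℕ), (U : Filter (Finset X × ℕ)) ≤ atTop :=
    Ultrafilter.exists_le _
  -- the limit of the squared distances to the barycentres
  have main : ∀ (f : V → X) (b : X), IsBar (fun _ : V => (1 : ℝ) / Fintype.card V) f b →
      ∃ (ρ : Finset X × ℕ → X → ℝ) (r : X → ℝ)
        (a : ∀ j i, Y j i), (∀ j i, IsBar (fun _ : V => (1 : ℝ) / Fintype.card V)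
          (fun v => π j i (f v)) (a j i)) ∧
        (∀ᶠ j in (U : Filter (Finset X × ℕ)), ∀ v,
          HasSum (fun i => dist (a j i) (π j i (f v)) ^ 2) (ρ j (f v))) ∧
        (∀ x, Tendsto (fun j => ρ j x) U (𝓝 (r x))) ∧
        E1 (fun v => dist b (f v) ^ 2) ≤ E1 fun v => r (f v) := by
    intro f b hb
    choose a ha using fun (j : Finset X × ℕ) (i : I j) =>
      @stmtBar (Y j i) (mY j i) (hC j i) (hY j i) V _ (fun _ => 1 / Fintype.card V)
        (fun v => π j i (f v)) hw0 hw1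
    have hlev : ∀ j : Finset X × ℕ, ∃ ρ : X → ℝ, (Finset.univ.image f ⊆ j.1) →
        (∀ x ∈ j.1, HasSum (fun i => dist (a j i) (π j i x) ^ 2) (ρ x)) ∧
        (∀ x ∈ j.1, ρ x ∈ Set.Icc 0 (E1 fun v => S j (f v) x)) ∧
        ∀ x ∈ j.1, ∀ y ∈ j.1, ∀ z ∈ j.1, ∀ t s : ℝ, 0 < t → t < 1 → 0 < s →
        ρ z ≤ (1 + s) * ((1 - t) * ρ x + t * ρ y - t * (1 - t) * S j x y) +
          (1 + 1 / s) * ((1 - t) * S j z x + t * S j z y - t * (1 - t) * S j x y) := by
      intro j
      by_cases hj : Finset.univ.image f ⊆ j.1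
      · obtain ⟨ρ, h1, h2, h3⟩ := one_level (π := π j) (hY j) f (a j) (ha j)
          (T := (j.1 : Set X)) (S := S j) (fun x hx y hy => (hS j x hx y hy).1)
          (fun v => hj (Finset.mem_image_of_mem _ (Finset.mem_univ v)))
        exact ⟨ρ, fun _ => ⟨h1, h2, h3⟩⟩
      · exact ⟨0, fun h => absurd h hj⟩
    choose ρ hρ using hlev
    have hE : ∀ x, Tendsto (fun j => E1 fun v => S j (f v) x) atTop
        (𝓝 (E1 fun v => dist (f v) x ^ 2)) := by
      intro x
      unfold E1
      exact (tendsto_finsetSum _ fun v _ => hlim (f v) x).div_const _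
    have hex : ∀ x, ∃ r : ℝ, Tendsto (fun j => ρ j x) U (𝓝 r) := by
      intro x
      have h1 : ∀ᶠ j in (U : Filter (Finset X × ℕ)),
          ρ j x ∈ Set.Icc 0 ((E1 fun v => dist (f v) x ^ 2) + 1) := by
        have h2 := (hE x).eventually_le_const
          (show (E1 fun v => dist (f v) x ^ 2) < (E1 fun v => dist (f v) x ^ 2) + 1 by linarith)
        refine hU ?_
        filter_upwards [hev (Finset.univ.image f), hev {x}, h2] with j hj1 hj2 hj3
        have h4 := (hρ j hj1).2.1 x (hj2 (by simp))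
        exact ⟨h4.1, h4.2.trans hj3⟩
      obtain ⟨r, _, hr⟩ := isCompact_Icc.ultrafilter_le_nhds (U.map fun j => ρ j x)
        (by
          rw [Ultrafilter.coe_map, le_principal_iff, Filter.mem_map]
          exact h1)
      exact ⟨r, hr⟩
    choose r hr using hex
    refine ⟨ρ, r, a, ha, ?_, hr, ?_⟩
    · refine hU ?_
      filter_upwards [hev (Finset.univ.image f)] with j hj v
      exact (hρ j hj).1 _ (hj (Finset.mem_image_of_mem _ (Finset.mem_univ v)))
    · refine var_le_of_conv f hb (φ := r) (fun x => ?_) (fun x y t ht0 ht1 => ?_)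
      · refine ge_of_tendsto (hr x) (hU ?_)
        filter_upwards [hev (Finset.univ.image f), hev {x}] with j hj1 hj2
        exact ((hρ j hj1).2.1 x (hj2 (by simp))).1
      · refine ⟨pt hX x y t, ?_⟩
        obtain ⟨z, hz⟩ : ∃ z, z = pt hX x y t := ⟨_, rfl⟩
        have hzx : dist z x = t * dist x y := by
          rw [hz, dist_comm]
          exact dist_pt_left hX x y ht0.le ht1.le
        have hzy : dist z y = (1 - t) * dist x y := by
          rw [hz]
          exact dist_pt_right hX x y ht0.le ht1.le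
        rw [← hz]
        refine le_of_forall_mul fun s hs => ?_
        have h1 : Tendsto (fun j => (1 + s) * ((1 - t) * ρ j x + t * ρ j y -
            t * (1 - t) * S j x y) + (1 + 1 / s) * ((1 - t) * S j z x + t * S j z y -
            t * (1 - t) * S j x y)) U (𝓝 ((1 + s) * ((1 - t) * r x + t * r y -
            t * (1 - t) * dist x y ^ 2) + (1 + 1 / s) * ((1 - t) * dist z x ^ 2 +
            t * dist z y ^ 2 - t * (1 - t) * dist x y ^ 2))) := by
          have hl : ∀ x y, Tendsto (fun j => S j x y) U (𝓝 (dist x y ^ 2)) :=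
            fun x y => (hlim x y).mono_left hU
          exact (((((hr x).const_mul _).add ((hr y).const_mul _)).sub
            ((hl x y).const_mul _)).const_mul _).add
            (((((hl z x).const_mul _).add ((hl z y).const_mul _)).sub
            ((hl x y).const_mul _)).const_mul _)
        have h2 : r z ≤ (1 + s) * ((1 - t) * r x + t * r y - t * (1 - t) * dist x y ^ 2) +
            (1 + 1 / s) * ((1 - t) * dist z x ^ 2 + t * dist z y ^ 2 -
              t * (1 - t) * dist x y ^ 2) := by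
          refine le_of_tendsto_of_tendsto (hr z) h1 (hU ?_)
          filter_upwards [hev (Finset.univ.image f), hev {x, y, z}] with j hj1 hj2
          exact (hρ j hj1).2.2 x (hj2 (by simp)) y (hj2 (by simp)) z (hj2 (by simp)) t s
            ht0 ht1 hs
        have e : (1 - t) * dist z x ^ 2 + t * dist z y ^ 2 - t * (1 - t) * dist x y ^ 2 = 0 := by
          rw [hzx, hzy]
          ring
        rw [e, mul_zero, add_zero] at h2
        exact h2
  obtain ⟨ρ₁, r₁, a₁, ha₁, hs₁, hr₁, h1⟩ := main f₁ b₁ hb₁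
  obtain ⟨ρ₂, r₂, a₂, ha₂, hs₂, hr₂, h2⟩ := main f₂ b₂ hb₂
  have hfin : (1 + c) * ((E1 (fun v => r₁ (f₁ v)) + E1 (fun v => r₂ (f₂ v))) / 2) ≤
      Ee adj p (fun u v => dist (f₁ u) (f₂ v) ^ 2) := by
    have hl : ∀ x y, Tendsto (fun j => S j x y) U (𝓝 (dist x y ^ 2)) :=
      fun x y => (hlim x y).mono_left hU
    have t1 : Tendsto (fun j => (1 + c) * ((E1 (fun v => ρ₁ j (f₁ v)) +
        E1 (fun v => ρ₂ j (f₂ v))) / 2)) U (𝓝 ((1 + c) * ((E1 (fun v => r₁ (f₁ v)) +
        E1 (fun v => r₂ (f₂ v))) / 2))) := by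
      unfold E1
      exact ((((tendsto_finsetSum _ fun v _ => hr₁ (f₁ v)).div_const _).add
        ((tendsto_finsetSum _ fun v _ => hr₂ (f₂ v)).div_const _)).div_const _).const_mul _
    have t2 : Tendsto (fun j => Ee adj p (fun u v => S j (f₁ u) (f₂ v))) U
        (𝓝 (Ee adj p (fun u v => dist (f₁ u) (f₂ v) ^ 2))) := by
      unfold Ee
      refine (tendsto_finsetSum _ fun u _ => tendsto_finsetSum _ fun v _ => ?_).div_const _
      split_ifs
      · exact hl _ _
      · exact tendsto_const_nhds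
    refine le_of_tendsto_of_tendsto t1 t2 ?_
    have h3 : ∀ᶠ j in (U : Filter (Finset X × ℕ)),
        Finset.univ.image f₁ ⊆ j.1 ∧ Finset.univ.image f₂ ⊆ j.1 :=
      hU ((hev _).and (hev _))
    filter_upwards [h3, hs₁, hs₂] with j hj hj1 hj2
    have hE : HasSum (fun i => Ee adj p (fun u v => dist (π j i (f₁ u)) (π j i (f₂ v)) ^ 2))
        (Ee adj p (fun u v => S j (f₁ u) (f₂ v))) := by
      unfold Ee
      refine (hasSum_sum fun u _ => hasSum_sum fun v _ => ?_).div_const _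
      split_ifs
      · exact (hS j _ (hj.1 (Finset.mem_image_of_mem _ (Finset.mem_univ u))) _
          (hj.2 (Finset.mem_image_of_mem _ (Finset.mem_univ v)))).1
      · exact hasSum_zero
    exact hasSum_le (fun i => hG j i V adj p hQR (fun v => π j i (f₁ v))
      (fun v => π j i (f₂ v)) (a₁ j i) (a₂ j i) (ha₁ j i) (ha₂ j i))
      ((((hasSum_E1 hj1).add (hasSum_E1 hj2)).div_const 2).mul_left (1 + c)) hE
  refine le_trans ?_ hfin
  exact mul_le_mul_of_nonneg_left (by linarith) (by linarith)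

end Vale.Agent.P172.H783
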