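import Vale.Agent.P172.R2.H783.Prod
import Vale.Agent.P172.Asm1

/-!
# P172: the fixed point property of the random group from the gap of one space (helper783,
after Asm1 of helper218)
-/

namespace Vale.Agent.P172.H783

open Vale.Agent.P172

universe u

open Finset

open Classical in
/-- the nonlinear gap of the space `X` with given constants -/
def UGx (X : Type u) [MetricSpace X] (c ε : ℝ) : Prop :=
  ∀ (V : Type) [Fintype V] (adj : V → V → Prop) (p : ℝ), QR adj p ε →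
  ∀ (f₁ f₂ : V → X) (r : ℝ),
    (∀ x, r ≤ (∑ u, dist (f₁ u) x ^ 2) / Fintype.card V) →
    (∀ x, r ≤ (∑ v, dist (f₂ v) x ^ 2) / Fintype.card V) →
    (1 + c) * r ≤ (∑ u, ∑ v, if adj u v then dist (f₁ u) (f₂ v) ^ 2 else 0) /
      ((Fintype.card V) ^ 2 * p)

open Classical in
theorem ugx_of_gap {X : Type u} [MetricSpace X] [CompleteSpace X] (hX : Cat X) {c ε : ℝ}
    (hc : 0 ≤ c) (hε : ε ≤ 1 / 20) (hG : Gap X c ε) : UGx X c ε := by
  intro V _ adj p hQR f₁ f₂ r h1 h2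
  have Q := hQR.qf hε
  have : Nonempty V := by
    have h := Q.n0
    exact Fintype.card_pos_iff.mp (by exact_mod_cast h)
  have hw1 : ∑ _v : V, (1 : ℝ) / Fintype.card V = 1 := by
    have hV : (Fintype.card V : ℝ) ≠ 0 := (card_pos' (V := V)).ne'
    rw [Finset.sum_const, Finset.card_univ, nsmul_eq_mul]
    field_simp
  have hw0 : ∀ _v : V, (0 : ℝ) ≤ 1 / Fintype.card V := fun _ => by positivity
  obtain ⟨b₁, hb₁⟩ := stmtBar X hX V (fun _ => 1 / Fintype.card V) f₁ hw0 hw1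
  obtain ⟨b₂, hb₂⟩ := stmtBar X hX V (fun _ => 1 / Fintype.card V) f₂ hw0 hw1
  have h := hG V adj p hQR f₁ f₂ b₁ b₂ hb₁ hb₂
  have h3 : r ≤ E1 (fun v => dist b₁ (f₁ v) ^ 2) := by
    have := h1 b₁
    simp only [dist_comm (f₁ _) b₁] at this
    exact this
  have h4 : r ≤ E1 (fun v => dist b₂ (f₂ v) ^ 2) := by
    have := h2 b₂
    simp only [dist_comm (f₂ _) b₂] at this
    exact this
  refine le_trans ?_ h
  exact mul_le_mul_of_nonneg_left (by linarith) (by linarith)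

open Classical in
/-- growth of the two-point energies -/
theorem growthx {c ε ε₂ : ℝ} (hc : 0 < c) (hc1 : c ≤ 1)
    (hε₂ : ε₂ ≤ ε) (hε₂' : ε₂ ≤ c / 10) {N : ℕ} {W : Finset (List (Al (N + 1)))} {k k' : ℕ}
    (Rel : Finset ((Fin k → Al (N + 1)) × (Fin k' → Al (N + 1)) × (Fin k → Al (N + 1))))
    (hW : ∀ t ∈ Rel, relWord t.1 t.2.1 t.2.2 ∈ W)
    (hQR : QR (V := {w : Fin k → Al (N + 1) // Good (List.ofFn w)})
      (fun u v => ∃ c, (u.1, c, v.1) ∈ Rel) (1 / ((N + 1 : ℕ) : ℝ) ^ (k - 1)) ε₂)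
    (hcount : ∀ c : Fin k' → Al (N + 1), ((Rel.filter fun t => t.2.1 = c).card : ℝ) ≤
      (1 + ε₂) * ((Fintype.card {w : Fin k → Al (N + 1) // Good (List.ofFn w)} : ℝ) ^ 2 *
        (1 / ((N + 1 : ℕ) : ℝ) ^ (k - 1)) / (Fintype.card (Al (N + 1)) : ℝ) ^ k'))
    {X : Type u} [MetricSpace X] [CompleteSpace X] [MulAction (Gr W) X]
    [IsIsometricSMul (Gr W) X] (hUG : UGx X c ε)
    (hG : ∀ x q : X, Th (gG W) k x q ≤ (1 + c / 10) *
      ((∑ w : {w : Fin k → Al (N + 1) // Good (List.ofFn w)},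
        dist x (wval (gG W) w.1 • q) ^ 2) /
        Fintype.card {w : Fin k → Al (N + 1) // Good (List.ofFn w)}))
    (p q : X) (r : ℝ) (h1 : ∀ x, r ≤ Th (gG W) k x p) (h2 : ∀ x, r ≤ Th (gG W) k x q) :
    (1 + c / 2) * r ≤ Th (gG W) k' p q := by
  rcases le_or_gt r 0 with hr | hr
  · exact (mul_nonpos_of_nonneg_of_nonpos (by linarith) hr).trans (th_nonneg (gG W) k' p q)
  obtain ⟨pp, hpp⟩ : ∃ pp : ℝ, pp = 1 / ((N + 1 : ℕ) : ℝ) ^ (k - 1) := ⟨_, rfl⟩
  have hpp0 : 0 < pp := by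
    rw [hpp]
    positivity
  rw [← hpp] at hQR hcount
  have hn : (0 : ℝ) < Fintype.card {w : Fin k → Al (N + 1) // Good (List.ofFn w)} := by
    have h := hQR.big
    rcases Nat.eq_zero_or_pos (Fintype.card {w : Fin k → Al (N + 1) // Good (List.ofFn w)})
      with h0 | h0
    · rw [h0] at h
      norm_num at h
    · exact_mod_cast h0
  have hub := hUG {w : Fin k → Al (N + 1) // Good (List.ofFn w)}
    (fun u v => ∃ c, (u.1, c, v.1) ∈ Rel) pp (hQR.mono hε₂)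
    (fun u => wval (gG W) u.1 • p) (fun v => wval (gG W) v.1 • q) (r / (1 + c / 10))
    (fun x => by
      rw [div_le_iff₀ (by linarith)]
      refine (h1 x).trans ((hG x p).trans (le_of_eq ?_))
      simp only [dist_comm x]
      ring)
    (fun x => by
      rw [div_le_iff₀ (by linarith)]
      refine (h2 x).trans ((hG x q).trans (le_of_eq ?_))
      simp only [dist_comm x]
      ring)
  obtain ⟨n2, hn2⟩ : ∃ n2 : ℝ,
      n2 = (Fintype.card {w : Fin k → Al (N + 1) // Good (List.ofFn w)} : ℝ) ^ 2 := ⟨_, rfl⟩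
  have hn20 : 0 < n2 := by
    rw [hn2]
    positivity
  rw [← hn2] at hub hcount
  have hAl : (0 : ℝ) < (Fintype.card (Al (N + 1)) : ℝ) ^ k' := by
    have : (0 : ℝ) < Fintype.card (Al (N + 1)) := by exact_mod_cast Fintype.card_pos
    positivity
  have hsum := sum_edges_le (P := fun w : Fin k → Al (N + 1) => Good (List.ofFn w)) Rel
    (fun u v => ∃ c, (u.1, c, v.1) ∈ Rel) (fun _ _ h => h)
    (fun u v => dist (wval (gG W) u.1 • p) (wval (gG W) v.1 • q) ^ 2)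
    (fun b => dist p (wval (gG W) b • q) ^ 2) (fun _ => sq_nonneg _) (fun u b v huv => by
      have h := gG_relWord (hW _ huv)
      rw [← h, mul_smul, dist_smul])
  have hsum2 : ∑ t ∈ Rel, dist p (wval (gG W) t.2.1 • q) ^ 2 ≤
      (1 + ε₂) * (n2 * pp) * Th (gG W) k' p q := by
    rw [← Finset.sum_fiberwise Rel (fun t => t.2.1)]
    have e : ∀ b : Fin k' → Al (N + 1), ∑ t ∈ Rel with t.2.1 = b,
        dist p (wval (gG W) t.2.1 • q) ^ 2 =
        ((Rel.filter fun t => t.2.1 = b).card : ℝ) * dist p (wval (gG W) b • q) ^ 2 := by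
      intro b
      rw [Finset.sum_congr rfl fun t ht => by rw [(Finset.mem_filter.mp ht).2], Finset.sum_const,
        nsmul_eq_mul]
    rw [Finset.sum_congr rfl fun b _ => e b]
    unfold Th
    rw [← mul_div_assoc, Finset.mul_sum, Finset.sum_div]
    refine Finset.sum_le_sum fun b _ => ?_
    have h3 := mul_le_mul_of_nonneg_right (hcount b)
      (sq_nonneg (dist p (wval (gG W) b • q)))
    refine h3.trans (le_of_eq ?_)
    ring
  have hub2 : (1 + c) * (r / (1 + c / 10)) ≤ (1 + ε₂) * Th (gG W) k' p q := by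
    refine hub.trans ?_
    rw [div_le_iff₀ (mul_pos hn20 hpp0)]
    have hs := hsum.trans hsum2
    have e : (1 + ε₂) * Th (gG W) k' p q * (n2 * pp) = (1 + ε₂) * (n2 * pp) * Th (gG W) k' p q := by
      ring
    rw [e]
    convert hs using 5
  exact fin_arith hc hc1 hε₂' hr (th_nonneg (gG W) k' p q) hub2

open Classical in
/-- fixed points from the gap -/
theorem asm1x {c ε ε₂ : ℝ} (hc : 0 < c) (hc1 : c ≤ 1)
    (hε₂ : ε₂ ≤ ε) (hε₂' : ε₂ ≤ c / 10) {P : ℕ} (hlam : 4 < (1 + c / 2) ^ P) {k : ℕ → ℕ}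
    (hk0 : 0 < k 0) (hk : ∀ j, k j < k (j + 1)) (hkP : k P ≤ 2 * k 0) (hodd : Odd (k 1))
    {N : ℕ} (hN : k 0 ≤ N + 1) {W : Finset (List (Al (N + 1)))}
    (Rel : (j : ℕ) → Finset ((Fin (k j) → Al (N + 1)) × (Fin (k (j + 1)) → Al (N + 1)) ×
      (Fin (k j) → Al (N + 1))))
    (hW : ∀ j < P, ∀ t ∈ Rel j, relWord t.1 t.2.1 t.2.2 ∈ W)
    (hQR : ∀ j < P, QR (V := {w : Fin (k j) → Al (N + 1) // Good (List.ofFn w)})
      (fun u v => ∃ c, (u.1, c, v.1) ∈ Rel j) (1 / ((N + 1 : ℕ) : ℝ) ^ (k j - 1)) ε₂)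
    (hcount : ∀ j < P, ∀ c : Fin (k (j + 1)) → Al (N + 1),
      (((Rel j).filter fun t => t.2.1 = c).card : ℝ) ≤
      (1 + ε₂) * ((Fintype.card {w : Fin (k j) → Al (N + 1) // Good (List.ofFn w)} : ℝ) ^ 2 *
        (1 / ((N + 1 : ℕ) : ℝ) ^ (k j - 1)) / (Fintype.card (Al (N + 1)) : ℝ) ^ k (j + 1)))
    {X : Type u} [Nonempty X] [MetricSpace X] [CompleteSpace X] [MulAction (Gr W) X]
    [IsIsometricSMul (Gr W) X] (hX : Cat X) (hUG : UGx X c ε)
    (hG : ∀ j < P, ∀ x q : X, Th (gG W) (k j) x q ≤ (1 + c / 10) *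
      ((∑ w : {w : Fin (k j) → Al (N + 1) // Good (List.ofFn w)},
        dist x (wval (gG W) w.1 • q) ^ 2) /
        Fintype.card {w : Fin (k j) → Al (N + 1) // Good (List.ofFn w)})) :
    ∃ q : X, ∀ h : Gr W, h • q = q := by
  have hP : 0 < P := by
    rcases Nat.eq_zero_or_pos P with h | h
    · rw [h] at hlam
      norm_num at hlam
    · exact h
  obtain ⟨q, hq⟩ := stmtFix (Gr W) X hX (Al (N + 1)) (gG W) Al.inv Al.inv_inv gG_inv P k
    (1 + c / 2) (by linarith) hlam hk0 hk hkP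
    (fun j hj p q r h1 h2 => growthx hc hc1 hε₂ hε₂' (Rel j) (hW j hj) (hQR j hj)
      (hcount j hj) hUG (hG j hj) p q r h1 h2)
    (fun a => even_words (by linarith) hk0 hN hodd (Rel 0) (hW 0 hP) (hQR 0 hP) a)
  exact ⟨q, fixed_of_letters hq⟩

end Vale.Agent.P172.H783
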