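import Vale.Agent.P172.Fox

/-!
# P172: the Euler characteristic of an aspherical presentation (helper783)
-/

namespace Vale.Agent.P172.H783

open Vale.Agent.P172 Vale.Agent.P201.S.TF

/-- `ℤ` has a resolution `0 → ℤ[G]^a → ℤ[G]^b → ℤ[G] → ℤ → 0` -/
def Res2 (G : Type) [Group G] (a b : ℕ) : Prop :=
  ∃ (d2 : (Fin a → MonoidAlgebra ℤ G) →ₗ[MonoidAlgebra ℤ G] (Fin b → MonoidAlgebra ℤ G))
    (d1 : (Fin b → MonoidAlgebra ℤ G) →ₗ[MonoidAlgebra ℤ G] MonoidAlgebra ℤ G),
    Function.Injective d2 ∧ (∀ x, d1 x = 0 ↔ ∃ y, d2 y = x) ∧ (∀ x, aug G x = 0 ↔ ∃ y, d1 y = x)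

section Res

variable {G : Type} [Group G]

/-- an aspherical finite presentation with `b` generators and `a` relators gives a free resolution
of ranks `a, b, 1` (as `hasFreeRes2_of_asph` of the starting files, with the ranks) -/
theorem res2_of_asph {L R : Type} [Fintype L] [Fintype R] {π : FreeGroup L →* G}
    {rel : R → FreeGroup L} (hπ : Function.Surjective π)
    (hker : π.ker = Subgroup.normalClosure (Set.range rel)) (has : Asph π rel) :
    Res2 G (Fintype.card R) (Fintype.card L) := by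
  classical
  obtain ⟨h1, h2, h3⟩ := fox_exact hπ hker has
  let d1 : (L → MonoidAlgebra ℤ G) →ₗ[MonoidAlgebra ℤ G] MonoidAlgebra ℤ G :=
    Fintype.linearCombination (MonoidAlgebra ℤ G)
      (fun l : L => MonoidAlgebra.single (π (FreeGroup.of l)) (1 : ℤ) - 1)
  let d2 : (R → MonoidAlgebra ℤ G) →ₗ[MonoidAlgebra ℤ G] (L → MonoidAlgebra ℤ G) :=
    Fintype.linearCombination (MonoidAlgebra ℤ G) (fun r : R => cv L (D π (rel r)))
  have e1 : ∀ f : (G × L) →₀ ℤ, d1 (cv L f) = cv Unit (P1 π f) () := by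
    intro f
    induction f using Finsupp.induction_linear with
    | zero => simp
    | add f g hf hg => simp only [map_add, Pi.add_apply, hf, hg]
    | single x m =>
      obtain ⟨g, l⟩ := x
      rw [cv_single, P1_single, map_zsmul, map_sub, cv_single, cv_single]
      simp only [d1]
      rw [Fintype.linearCombination_apply_single, smul_eq_mul, mul_sub, mul_one,
        MonoidAlgebra.single_mul_single, mul_one]
      simp [smul_sub]
  have e2 : ∀ f : (G × R) →₀ ℤ, d2 (cv R f) = cv L (bdy π rel f) := by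
    intro f
    induction f using Finsupp.induction_linear with
    | zero => simp
    | add f g hf hg => simp only [map_add, hf, hg]
    | single x m =>
      obtain ⟨g, r⟩ := x
      rw [cv_single, bdy_single, map_zsmul, cv_sm]
      simp only [d2]
      rw [Fintype.linearCombination_apply_single, ← smul_assoc]
      congr 1
      simp
  let eR : (Fin (Fintype.card R) → MonoidAlgebra ℤ G) ≃ₗ[MonoidAlgebra ℤ G]
      (R → MonoidAlgebra ℤ G) :=
    LinearEquiv.funCongrLeft (MonoidAlgebra ℤ G) (MonoidAlgebra ℤ G) (Fintype.equivFin R)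
  let eL : (L → MonoidAlgebra ℤ G) ≃ₗ[MonoidAlgebra ℤ G]
      (Fin (Fintype.card L) → MonoidAlgebra ℤ G) :=
    LinearEquiv.funCongrLeft (MonoidAlgebra ℤ G) (MonoidAlgebra ℤ G) (Fintype.equivFin L).symm
  refine ⟨eL.toLinearMap ∘ₗ d2 ∘ₗ eR.toLinearMap,
    d1 ∘ₗ eL.symm.toLinearMap, ?_, ?_, ?_⟩
  · rw [injective_iff_map_eq_zero]
    intro x hx
    have hx' : eL (d2 (eR x)) = 0 := hx
    rw [LinearEquiv.map_eq_zero_iff] at hx'
    obtain ⟨f, hf⟩ := cv_surj (eR x)
    rw [← hf, e2] at hx'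
    have h4 : bdy π rel f = 0 := cv_inj (by rw [hx', map_zero])
    rw [h1 f h4, map_zero] at hf
    exact (LinearEquiv.map_eq_zero_iff eR).1 hf.symm
  · intro x
    obtain ⟨f, hf⟩ := cv_surj (eL.symm x)
    constructor
    · intro hx
      have hx' : d1 (eL.symm x) = 0 := hx
      rw [← hf, e1] at hx'
      have h4 : P1 π f = 0 := by
        apply cv_inj (A := Unit)
        funext u
        rw [hx', map_zero]
        rfl
      obtain ⟨z, hz⟩ := (h2 f).1 h4
      refine ⟨eR.symm (cv R z), ?_⟩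
      change eL (d2 (eR (eR.symm (cv R z)))) = x
      rw [LinearEquiv.apply_symm_apply, e2, hz, hf, LinearEquiv.apply_symm_apply]
    · rintro ⟨y, rfl⟩
      obtain ⟨z, hz⟩ := cv_surj (eR y)
      change d1 (eL.symm (eL (d2 (eR y)))) = 0
      rw [LinearEquiv.symm_apply_apply, ← hz, e2, e1, (h2 _).2 ⟨z, rfl⟩, map_zero]
      rfl
  · intro x
    obtain ⟨f, hf⟩ := cv_surj (A := Unit) (fun _ => x)
    have hx : x = cv Unit f () := by rw [hf]
    constructor
    · intro h
      rw [hx, aug_cv] at h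
      obtain ⟨y, hy⟩ := (h3 f).1 h
      refine ⟨eL (cv L y), ?_⟩
      change d1 (eL.symm (eL (cv L y))) = x
      rw [LinearEquiv.symm_apply_apply, e1, hy, ← hx]
    · rintro ⟨y, hy⟩
      obtain ⟨z, hz⟩ := cv_surj (eL.symm y)
      have hy' : d1 (eL.symm y) = x := hy
      rw [← hz, e1] at hy'
      rw [← hy', aug_cv]
      exact ag_P1 π z

/-- the group ring has the invariant basis number -/
theorem ibn (G : Type) [Group G] : InvariantBasisNumber (MonoidAlgebra ℤ G) := by
  rw [invariantBasisNumber_iff_matrix]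
  intro n m f g hfg hgf
  have h := (invariantBasisNumber_iff_matrix (R := ℤ)).mp inferInstance n m
    (f.map (aug G)) (g.map (aug G))
  refine h ?_ ?_
  · rw [← Matrix.map_mul, hfg]
    exact Matrix.map_one _ (map_zero _) (map_one _)
  · rw [← Matrix.map_mul, hgf]
    exact Matrix.map_one _ (map_zero _) (map_one _)

/-- a linear map on a free module through which `d1` factors -/
theorem lift_free {b b' : ℕ}
    {d1 : (Fin b → MonoidAlgebra ℤ G) →ₗ[MonoidAlgebra ℤ G] MonoidAlgebra ℤ G}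
    {d1' : (Fin b' → MonoidAlgebra ℤ G) →ₗ[MonoidAlgebra ℤ G] MonoidAlgebra ℤ G}
    (h : ∀ x, ∃ y, d1 y = d1' x) :
    ∃ s : (Fin b' → MonoidAlgebra ℤ G) →ₗ[MonoidAlgebra ℤ G] (Fin b → MonoidAlgebra ℤ G),
      ∀ x, d1 (s x) = d1' x := by
  choose y hy using fun j : Fin b' => h (Pi.single j 1)
  refine ⟨Fintype.linearCombination (MonoidAlgebra ℤ G) y, ?_⟩
  have e : d1 ∘ₗ Fintype.linearCombination (MonoidAlgebra ℤ G) y = d1' := by
    refine LinearMap.pi_ext' fun j => LinearMap.ext_ring ?_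
    show d1 (Fintype.linearCombination (MonoidAlgebra ℤ G) y (Pi.single j 1)) =
      d1' (Pi.single j 1)
    rw [Fintype.linearCombination_apply_single, one_smul, hy]
  intro x
  exact LinearMap.congr_fun e x

/-- Schanuel: half of the comparison -/
theorem schanuel_half {a b b' : ℕ}
    {d2 : (Fin a → MonoidAlgebra ℤ G) →ₗ[MonoidAlgebra ℤ G] (Fin b → MonoidAlgebra ℤ G)}
    {d1 : (Fin b → MonoidAlgebra ℤ G) →ₗ[MonoidAlgebra ℤ G] MonoidAlgebra ℤ G}
    {d1' : (Fin b' → MonoidAlgebra ℤ G) →ₗ[MonoidAlgebra ℤ G] MonoidAlgebra ℤ G}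
    (h2 : Function.Injective d2) (h1 : ∀ x, d1 x = 0 ↔ ∃ y, d2 y = x)
    (h : ∀ x, ∃ y, d1 y = d1' x) :
    Nonempty (((Fin a → MonoidAlgebra ℤ G) × (Fin b' → MonoidAlgebra ℤ G))
      ≃ₗ[MonoidAlgebra ℤ G]
      LinearMap.ker (d1 ∘ₗ LinearMap.fst _ _ _ - d1' ∘ₗ LinearMap.snd (MonoidAlgebra ℤ G)
        (Fin b → MonoidAlgebra ℤ G) (Fin b' → MonoidAlgebra ℤ G))) := by
  obtain ⟨s, hs⟩ := lift_free h
  have hmem : ∀ p : (Fin a → MonoidAlgebra ℤ G) × (Fin b' → MonoidAlgebra ℤ G),
      (d2 p.1 + s p.2, p.2) ∈ LinearMap.ker (d1 ∘ₗ LinearMap.fst _ _ _ -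
        d1' ∘ₗ LinearMap.snd (MonoidAlgebra ℤ G)
        (Fin b → MonoidAlgebra ℤ G) (Fin b' → MonoidAlgebra ℤ G)) := by
    intro p
    rw [LinearMap.mem_ker, LinearMap.sub_apply, LinearMap.comp_apply, LinearMap.comp_apply,
      LinearMap.fst_apply, LinearMap.snd_apply, map_add, hs, (h1 _).mpr ⟨p.1, rfl⟩, zero_add,
      sub_self]
  refine ⟨LinearEquiv.ofBijective
    (LinearMap.codRestrict _ ((d2.coprod s).prod (LinearMap.snd _ _ _)) fun p => ?_) ⟨?_, ?_⟩⟩
  · have := hmem p
    simpa using this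
  · rw [injective_iff_map_eq_zero]
    rintro ⟨x, y⟩ hxy
    have h3 := congrArg Subtype.val hxy
    simp only [LinearMap.codRestrict_apply, LinearMap.prod_apply, Function.prod_apply,
      LinearMap.coprod_apply, LinearMap.snd_apply, ZeroMemClass.coe_zero, Prod.mk_eq_zero] at h3
    obtain ⟨h4, h5⟩ := h3
    rw [h5, map_zero, add_zero] at h4
    have h6 : x = 0 := h2 (by rw [h4, map_zero])
    rw [h5, h6]
    rfl
  · rintro ⟨⟨x, y⟩, hxy⟩
    have h3 : d1 x = d1' y := by
      rw [LinearMap.mem_ker, LinearMap.sub_apply, LinearMap.comp_apply, LinearMap.comp_apply,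
        LinearMap.fst_apply, LinearMap.snd_apply, sub_eq_zero] at hxy
      exact hxy
    obtain ⟨z, hz⟩ := (h1 (x - s y)).mp (by rw [map_sub, hs, h3, sub_self])
    refine ⟨(z, y), Subtype.ext ?_⟩
    simp only [LinearMap.codRestrict_apply, LinearMap.prod_apply, Function.prod_apply,
      LinearMap.coprod_apply, LinearMap.snd_apply, hz, sub_add_cancel]

/-- the Euler characteristic `1 - b + a` is an invariant -/
theorem res_unique {a b a' b' : ℕ} (h : Res2 G a b) (h' : Res2 G a' b') : a + b' = a' + b := by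
  obtain ⟨d2, d1, h2, h1, h0⟩ := h
  obtain ⟨d2', d1', h2', h1', h0'⟩ := h'
  obtain ⟨e⟩ := schanuel_half h2 h1 (d1' := d1') fun x => (h0 _).mp ((h0' _).mpr ⟨x, rfl⟩)
  obtain ⟨e'⟩ := schanuel_half h2' h1' (d1' := d1) fun x => (h0' _).mp ((h0 _).mpr ⟨x, rfl⟩)
  -- the two fibre products are the same
  let sw : LinearMap.ker (d1 ∘ₗ LinearMap.fst _ _ _ - d1' ∘ₗ LinearMap.snd (MonoidAlgebra ℤ G)
      (Fin b → MonoidAlgebra ℤ G) (Fin b' → MonoidAlgebra ℤ G)) ≃ₗ[MonoidAlgebra ℤ G]
      LinearMap.ker (d1' ∘ₗ LinearMap.fst _ _ _ - d1 ∘ₗ LinearMap.snd (MonoidAlgebra ℤ G)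
      (Fin b' → MonoidAlgebra ℤ G) (Fin b → MonoidAlgebra ℤ G)) :=
    { toFun := fun p => ⟨(p.1.2, p.1.1), by
        have := p.2
        simp only [LinearMap.mem_ker, LinearMap.sub_apply, LinearMap.comp_apply,
          LinearMap.fst_apply, LinearMap.snd_apply, sub_eq_zero] at this ⊢
        exact this.symm⟩
      invFun := fun p => ⟨(p.1.2, p.1.1), by
        have := p.2
        simp only [LinearMap.mem_ker, LinearMap.sub_apply, LinearMap.comp_apply,
          LinearMap.fst_apply, LinearMap.snd_apply, sub_eq_zero] at this ⊢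
        exact this.symm⟩
      left_inv := fun _ => rfl
      right_inv := fun _ => rfl
      map_add' := fun _ _ => rfl
      map_smul' := fun _ _ => rfl }
  have := ibn G
  have key := card_eq_of_linearEquiv (MonoidAlgebra ℤ G)
    ((LinearEquiv.sumArrowLequivProdArrow (Fin a) (Fin b') (MonoidAlgebra ℤ G)
      (MonoidAlgebra ℤ G)).trans ((e.trans sw).trans (e'.symm.trans
      (LinearEquiv.sumArrowLequivProdArrow (Fin a') (Fin b) (MonoidAlgebra ℤ G)
      (MonoidAlgebra ℤ G)).symm)))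
  simpa using key

end Res

section Transport

variable {G G' L R : Type} [Group G] [Group G'] {π : FreeGroup L →* G} {rel : R → FreeGroup L}

theorem asph_transport (e : G ≃* G') (h : Asph π rel) : Asph (e.toMonoidHom.comp π) rel := by
  intro z hz
  let m : ((G' × R) →₀ ℤ) ≃+ ((G × R) →₀ ℤ) :=
    Finsupp.domCongr (Equiv.prodCongr e.symm.toEquiv (Equiv.refl R))
  let φ : FreeGroup L × Multiplicative ((G' × R) →₀ ℤ) →*
      FreeGroup L × Multiplicative ((G × R) →₀ ℤ) :=
    MonoidHom.prodMap (MonoidHom.id _) (AddMonoidHom.toMultiplicative m.toAddMonoidHom)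
  have h1 : Gam (e.toMonoidHom.comp π) rel ≤ (Gam π rel).comap φ := by
    unfold Gam
    rw [Subgroup.closure_le]
    rintro _ ⟨p, rfl⟩
    show φ _ ∈ Gam π rel
    have e1 : φ (p.1 * rel p.2 * p.1⁻¹, Multiplicative.ofAdd
        (Finsupp.single ((e.toMonoidHom.comp π) p.1, p.2) (1 : ℤ))) =
        (p.1 * rel p.2 * p.1⁻¹, Multiplicative.ofAdd (Finsupp.single (π p.1, p.2) (1 : ℤ))) := by
      refine Prod.ext rfl ?_
      show Multiplicative.ofAdd (m (Finsupp.single ((e.toMonoidHom.comp π) p.1, p.2) (1 : ℤ))) =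
        Multiplicative.ofAdd (Finsupp.single (π p.1, p.2) (1 : ℤ))
      congr 1
      simp only [m, Finsupp.domCongr_apply, Finsupp.equivMapDomain_single]
      congr 1
      simp
    rw [e1]
    exact gam_gen p.1 p.2
  have h2 : φ ((1 : FreeGroup L), Multiplicative.ofAdd z) ∈ Gam π rel := h1 hz
  have h3 : m z = 0 := h (m z) h2
  exact (AddEquiv.map_eq_zero_iff m).mp h3

/-- `G` has an aspherical presentation with `b` generators and `a` relators -/
def AsphN (G : Type) [Group G] (a b : ℕ) : Prop :=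
  ∃ (L R : Type) (_ : Fintype L) (_ : Fintype R) (π : FreeGroup L →* G) (rel : R → FreeGroup L),
    Fintype.card R = a ∧ Fintype.card L = b ∧ Function.Surjective π ∧
    π.ker = Subgroup.normalClosure (Set.range rel) ∧ Asph π rel

theorem AsphN.transport (e : G ≃* G') {a b : ℕ} (h : AsphN G a b) : AsphN G' a b := by
  obtain ⟨L, R, _, _, π, rel, h1, h2, h3, h4, h5⟩ := h
  refine ⟨L, R, inferInstance, inferInstance, e.toMonoidHom.comp π, rel, h1, h2, ?_, ?_,
    asph_transport e h5⟩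
  · exact e.surjective.comp h3
  · rw [← h4]
    ext x
    simp [MonoidHom.mem_ker]

/-- isomorphic groups have the same Euler characteristic -/
theorem asphN_unique (e : G ≃* G') {a b a' b' : ℕ} (h : AsphN G a b) (h' : AsphN G' a' b') :
    a + b' = a' + b := by
  obtain ⟨L, R, _, _, π, rel, h1, h2, h3, h4, h5⟩ := h.transport e
  obtain ⟨L', R', _, _, π', rel', h1', h2', h3', h4', h5'⟩ := h'
  have k := res2_of_asph h3 h4 h5
  have k' := res2_of_asph h3' h4' h5'
  rw [h1, h2] at k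
  rw [h1', h2'] at k'
  exact res_unique k k'

end Transport

end Vale.Agent.P172.H783
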