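import Vale.Agent.P172.Defs3

/-!
# P172: tangent cones and the Izeki–Nayatani invariant (helper783)
-/

namespace Vale.Agent.P172.H783

open Vale.Agent.P172

/-- The tangent cones of the geodesic space `X` are contained in inner product spaces: for every
point `b` there are a real inner product space `H` and a map `L : X → H` such that
`dist (α (t * dist b x)) (β (t * dist b y)) / t → ‖L x - L y‖` as `t → 0+` for all geodesics `α`
from `b` to `x` and `β` from `b` to `y`. -/
def EuclideanCones.{u} (X : Type u) [MetricSpace X] : Prop :=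
  ∀ b : X, ∃ (H : Type u) (_ : NormedAddCommGroup H) (_ : InnerProductSpace ℝ H) (L : X → H),
    ∀ (x y : X) (α β : ℝ → X), IsGeodesic α b x → IsGeodesic β b y →
      Filter.Tendsto (fun t : ℝ => dist (α (t * dist b x)) (β (t * dist b y)) / t)
        (nhdsWithin 0 (Set.Ioi 0)) (nhds ‖L x - L y‖)

/-- The Izeki–Nayatani invariant of `X` is at most `δ`: for all finitely many points `f i` of `X`
with weights `w i` and barycentre `b` (the minimum of the weighted sum of the squared distances)
there are vectors `φ i` of a real inner product space, of length `dist b (f i)` and with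
`‖φ i - φ j‖ ≤ dist (f i) (f j)`, whose weighted mean `M` satisfies
`‖M‖ ^ 2 ≤ δ * ∑ i, w i * ‖φ i‖ ^ 2`. -/
def IzekiNayataniLE.{u} (X : Type u) [MetricSpace X] (δ : ℝ) : Prop :=
  ∀ (ι : Type) [Fintype ι] (w : ι → ℝ) (f : ι → X) (b : X), (∀ i, 0 ≤ w i) → ∑ i, w i = 1 →
    (∀ x, ∑ i, w i * dist (f i) b ^ 2 ≤ ∑ i, w i * dist (f i) x ^ 2) →
    ∃ (H : Type) (_ : NormedAddCommGroup H) (_ : InnerProductSpace ℝ H) (φ : ι → H),
      (∀ i, ‖φ i‖ = dist b (f i)) ∧ (∀ i j, ‖φ i - φ j‖ ≤ dist (f i) (f j)) ∧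
      ‖∑ i, w i • φ i‖ ^ 2 ≤ δ * ∑ i, w i * ‖φ i‖ ^ 2

end Vale.Agent.P172.H783
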