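import Vale.Agent.P172.R2.H783.Mix
import Vale.Agent.P172.R2.H783.Defs
import Vale.Agent.P172.Asm1

/-!
# P172: the gap for spaces with Izeki–Nayatani invariant less than one half (helper783)
-/

namespace Vale.Agent.P172.H783

open Vale.Agent.P172

universe u

open Finset

theorem Gap.mono {X : Type u} [MetricSpace X] {c ε c' ε' : ℝ} (h : Gap X c ε) (hc : c' ≤ c)
    (hε : ε' ≤ ε) : Gap X c' ε' := by
  intro V _ adj p hQR f₁ f₂ b₁ b₂ hb₁ hb₂
  refine le_trans ?_ (h V adj p (hQR.mono hε) f₁ f₂ b₁ b₂ hb₁ hb₂)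
  have h1 : 0 ≤ E1 (fun v => dist b₁ (f₁ v) ^ 2) := E1_nonneg fun _ => sq_nonneg _
  have h2 : 0 ≤ E1 (fun v => dist b₂ (f₂ v) ^ 2) := E1_nonneg fun _ => sq_nonneg _
  exact mul_le_mul_of_nonneg_right (by linarith) (by linarith)

/-- inner product computation -/
theorem complete_energy {V : Type} [Fintype V] {H : Type u} [NormedAddCommGroup H]
    [InnerProductSpace ℝ H] (x y : V → H) {δ : ℝ}
    (h : ‖(∑ u, x u) + ∑ v, y v‖ ^ 2 ≤
      2 * δ * (Fintype.card V * (∑ u, ‖x u‖ ^ 2 + ∑ v, ‖y v‖ ^ 2))) :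
    (1 - δ) * (Fintype.card V * (∑ u, ‖x u‖ ^ 2 + ∑ v, ‖y v‖ ^ 2)) ≤
      ∑ u, ∑ v, ‖x u - y v‖ ^ 2 := by
  have e : ∑ u, ∑ v, ‖x u - y v‖ ^ 2 =
      Fintype.card V * (∑ u, ‖x u‖ ^ 2 + ∑ v, ‖y v‖ ^ 2) -
        2 * inner ℝ (∑ u, x u) (∑ v, y v) := by
    have e1 : ∀ u, ∑ v, ‖x u - y v‖ ^ 2 =
        Fintype.card V * ‖x u‖ ^ 2 + ∑ v, ‖y v‖ ^ 2 - 2 * inner ℝ (x u) (∑ v, y v) := by
      intro u
      simp only [norm_sub_sq_real]
      rw [Finset.sum_add_distrib, Finset.sum_sub_distrib, Finset.sum_const, Finset.card_univ,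
        nsmul_eq_mul, ← Finset.mul_sum, inner_sum]
      ring
    rw [Finset.sum_congr rfl fun u _ => e1 u, Finset.sum_sub_distrib, Finset.sum_add_distrib,
      ← Finset.mul_sum, Finset.sum_const, Finset.card_univ, nsmul_eq_mul, ← Finset.mul_sum,
      sum_inner]
    ring
  rw [e]
  have h1 := norm_add_sq_real (∑ u, x u) (∑ v, y v)
  have h2 : ‖(∑ u, x u) + ∑ v, y v‖ ^ 2 ≤ 2 * (‖∑ u, x u‖ ^ 2 + ‖∑ v, y v‖ ^ 2) := by
    have := norm_sub_sq_real (∑ u, x u) (∑ v, y v)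
    have := sq_nonneg ‖(∑ u, x u) - ∑ v, y v‖
    linarith
  linarith

open Classical in
/-- **gap for spaces with Izeki–Nayatani invariant less than one half** -/
theorem gap_in {X : Type u} [MetricSpace X] [CompleteSpace X] (hX : Cat X) {δ s : ℝ}
    (hs0 : 0 < s) (hs1 : s ≤ 1) (hs : s ≤ 1 - 2 * δ) (hI : IzekiNayataniLE X δ) :
    Gap X (s / 2) (s ^ 2 / 1000) := by
  intro V _ adj p hQR f₁ f₂ b₁ b₂ hb₁ hb₂
  obtain ⟨ε, hε'⟩ : ∃ ε, ε = s ^ 2 / 1000 := ⟨_, rfl⟩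
  rw [← hε'] at hQR
  have hs2 : s ^ 2 ≤ s := by
    rw [sq]
    nlinarith
  have Q := hQR.qf (by rw [hε']; linarith : ε ≤ 1 / 20)
  have hp1 := hQR.le_one
  have hp := Q.p0
  have hn := Q.n0
  have : Nonempty V := Fintype.card_pos_iff.mp (by exact_mod_cast hn)
  obtain ⟨n, hn'⟩ : ∃ n : ℝ, n = Fintype.card V := ⟨_, rfl⟩
  have hn0 : 0 < n := by
    rw [hn']
    exact hn
  -- the joint barycentre
  obtain ⟨F, hF⟩ : ∃ F : V ⊕ V → X, F = Sum.elim f₁ f₂ := ⟨_, rfl⟩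
  have hw1 : ∑ _i : V ⊕ V, (1 : ℝ) / (2 * n) = 1 := by
    rw [Finset.sum_const, Finset.card_univ, Fintype.card_sum, nsmul_eq_mul]
    push_cast
    rw [← hn']
    field_simp
    ring
  have hw0 : ∀ _i : V ⊕ V, (0 : ℝ) ≤ 1 / (2 * n) := fun _ => by positivity
  obtain ⟨b, hb⟩ := stmtBar X hX (V ⊕ V) (fun _ => 1 / (2 * n)) F hw0 hw1
  obtain ⟨H, _, _, φ, hφ1, hφ2, hφ3⟩ := hI (V ⊕ V) (fun _ => 1 / (2 * n)) F b hw0 hw1 (by
    intro x
    have h := hb x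
    unfold wv at h
    have := sq_nonneg (dist b x)
    linarith)
  obtain ⟨x, hx⟩ : ∃ x : V → H, x = fun u => φ (Sum.inl u) := ⟨_, rfl⟩
  obtain ⟨y, hy⟩ : ∃ y : V → H, y = fun v => φ (Sum.inr v) := ⟨_, rfl⟩
  obtain ⟨S, hS⟩ : ∃ S, S = ∑ u, ‖x u‖ ^ 2 + ∑ v, ‖y v‖ ^ 2 := ⟨_, rfl⟩
  have hS0 : 0 ≤ S := by
    rw [hS]
    exact add_nonneg (Finset.sum_nonneg fun _ _ => sq_nonneg _)
      (Finset.sum_nonneg fun _ _ => sq_nonneg _)
  have h1 : ‖(∑ u, x u) + ∑ v, y v‖ ^ 2 ≤ 2 * δ * (Fintype.card V * S) := by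
    have e1 : ∑ i, (1 / (2 * n)) • φ i = (1 / (2 * n)) • ((∑ u, x u) + ∑ v, y v) := by
      rw [← Finset.smul_sum, Fintype.sum_sum_type, hx, hy]
    have e2 : ∑ i, 1 / (2 * n) * ‖φ i‖ ^ 2 = 1 / (2 * n) * S := by
      rw [← Finset.mul_sum, Fintype.sum_sum_type, hS, hx, hy]
    rw [e1, e2, norm_smul, mul_pow, Real.norm_eq_abs, sq_abs] at hφ3
    rw [← hn']
    have e3 : ‖(∑ u, x u) + ∑ v, y v‖ ^ 2 =
        (2 * n) ^ 2 * ((1 / (2 * n)) ^ 2 * ‖(∑ u, x u) + ∑ v, y v‖ ^ 2) := by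
      field_simp
    rw [e3]
    refine (mul_le_mul_of_nonneg_left hφ3 (by positivity)).trans (le_of_eq ?_)
    field_simp
  have h2 : (1 - δ) * (Fintype.card V * S) ≤ ∑ u, ∑ v, ‖x u - y v‖ ^ 2 := by
    rw [hS] at h1 ⊢
    exact complete_energy x y h1
  have h3 := mix_energy Q hp1 (θ := s / 8) (by positivity) (by rw [hε']; nlinarith) x y
  rw [← hS] at h3
  -- the energy of the edges
  have h4 : (∑ u, ∑ v, Mi adj u v * ‖x u - y v‖ ^ 2) / p / n ^ 2 ≤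
      Ee adj p (fun u v => dist (f₁ u) (f₂ v) ^ 2) := by
    unfold Ee
    rw [div_div, ← hn', mul_comm p]
    refine div_le_div_of_nonneg_right (Finset.sum_le_sum fun u _ => Finset.sum_le_sum
      fun v _ => ?_) (by positivity)
    have h5 : ‖x u - y v‖ ^ 2 ≤ dist (f₁ u) (f₂ v) ^ 2 := by
      have := hφ2 (Sum.inl u) (Sum.inr v)
      rw [hF] at this
      rw [hx, hy]
      exact pow_le_pow_left₀ (norm_nonneg _) this 2
    unfold Mi
    split_ifs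
    · rw [one_mul]
      exact h5
    · rw [zero_mul]
  refine le_trans ?_ h4
  -- the variances
  have hV1 : E1 (fun v => dist b₁ (f₁ v) ^ 2) ≤ (∑ u, ‖x u‖ ^ 2) / n := by
    have h := bar_E1 hb₁ b
    have e : E1 (fun v => dist (f₁ v) b ^ 2) = (∑ u, ‖x u‖ ^ 2) / n := by
      unfold E1
      rw [hn']
      congr 1
      refine Finset.sum_congr rfl fun u _ => ?_
      have := hφ1 (Sum.inl u)
      rw [hx]
      simp only
      rw [this, hF, dist_comm]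
      rfl
    rw [e] at h
    have := sq_nonneg (dist b₁ b)
    linarith
  have hV2 : E1 (fun v => dist b₂ (f₂ v) ^ 2) ≤ (∑ v, ‖y v‖ ^ 2) / n := by
    have h := bar_E1 hb₂ b
    have e : E1 (fun v => dist (f₂ v) b ^ 2) = (∑ v, ‖y v‖ ^ 2) / n := by
      unfold E1
      rw [hn']
      congr 1
      refine Finset.sum_congr rfl fun u _ => ?_
      have := hφ1 (Sum.inr u)
      rw [hy]
      simp only
      rw [this, hF, dist_comm]
      rfl
    rw [e] at h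
    have := sq_nonneg (dist b₂ b)
    linarith
  have h5 : (1 + s / 2) * ((E1 (fun v => dist b₁ (f₁ v) ^ 2) +
      E1 (fun v => dist b₂ (f₂ v) ^ 2)) / 2) ≤ (1 + s / 2) * (S / n / 2) := by
    refine mul_le_mul_of_nonneg_left ?_ (by linarith)
    have e : S / n = (∑ u, ‖x u‖ ^ 2) / n + (∑ v, ‖y v‖ ^ 2) / n := by
      rw [hS, add_div]
    rw [e]
    linarith
  refine h5.trans ?_
  rw [le_div_iff₀ (by positivity)]
  refine le_trans ?_ h3
  have e : (1 + s / 2) * (S / n / 2) * n ^ 2 = (1 / 2 + s / 4) * (n * S) := by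
    field_simp
    ring
  rw [e]
  rw [← hn'] at h2 ⊢
  have h6 : (1 / 2 + s / 4) * (n * S) ≤ (1 - δ - (6 * ε + s / 8)) * (n * S) := by
    refine mul_le_mul_of_nonneg_right ?_ (by positivity)
    rw [hε']
    linarith
  linarith

end Vale.Agent.P172.H783
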