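import Vale.Agent.P172.R2.H783.Hilb

/-!
# P172: logarithms from inner product tangent cones, and for Hilbert spaces (helper783)
-/

namespace Vale.Agent.P172.H783

open Vale.Agent.P172 Filter Topology

universe u

open Finset

section Cones

variable {X : Type u} [MetricSpace X] (hX : Cat X)

/-- contraction towards `b` -/
theorem dist_pt_pt_le (b x y : X) {t : ℝ} (h0 : 0 ≤ t) (h1 : t ≤ 1) :
    dist (pt hX b x t) (pt hX b y t) ≤ t * dist x y := by
  have h2 := le_ip_pt hX b x y h0 h1
  have h3 := le_ip_pt' hX b (pt hX b x t) y h0 h1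
  have h4 := dist_pt_left hX b x h0 h1
  have h5 := dist_pt_left hX b y h0 h1
  have h6 : t * (t * ip b x y) ≤ ip b (pt hX b x t) (pt hX b y t) :=
    (mul_le_mul_of_nonneg_left h2 h0).trans h3
  have h7 : dist (pt hX b x t) (pt hX b y t) ^ 2 ≤ (t * dist x y) ^ 2 := by
    rw [dist_sq_eq b (pt hX b x t), h4, h5, mul_pow t (dist x y), dist_sq_eq b x y]
    nlinarith
  exact abs_le_of_sq_le_sq' h7 (mul_nonneg h0 dist_nonneg) |>.2

theorem pt_self (b : X) {t : ℝ} (h0 : 0 ≤ t) (h1 : t ≤ 1) : pt hX b b t = b := by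
  have h := dist_pt_left hX b b h0 h1
  rw [dist_self, mul_zero] at h
  exact (dist_eq_zero.mp h).symm

/-- uniqueness of the point of a geodesic -/
theorem eq_pt {b x : X} {γ : ℝ → X} (hγ : IsGeodesic γ b x) {t : ℝ} (h0 : 0 ≤ t) (h1 : t ≤ 1) :
    γ (t * dist b x) = pt hX b x t := by
  obtain ⟨g0, g1, g2⟩ := hγ
  have hd : 0 ≤ dist b x := dist_nonneg
  have hmem : t * dist b x ∈ Set.Icc 0 (dist b x) :=
    ⟨mul_nonneg h0 hd, by nlinarith⟩
  have e1 := g2 0 ⟨le_rfl, hd⟩ _ hmem
  have e2 := g2 _ hmem (dist b x) ⟨hd, le_rfl⟩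
  rw [g0, zero_sub, abs_neg, abs_of_nonneg (mul_nonneg h0 hd)] at e1
  have e3 : |t * dist b x - dist b x| = (1 - t) * dist b x := by
    rw [abs_sub_comm, abs_of_nonneg (by nlinarith)]
    ring
  rw [g1, e3] at e2
  have h := pt_spec hX b x h0 h1 (γ (t * dist b x))
  rw [dist_comm (γ (t * dist b x)) b, e1, e2] at h
  have h2 : dist (γ (t * dist b x)) (pt hX b x t) ^ 2 ≤ 0 := by
    refine h.trans (le_of_eq ?_)
    ring
  have h3 : dist (γ (t * dist b x)) (pt hX b x t) = 0 :=
    pow_eq_zero_iff (two_ne_zero) |>.mp (le_antisymm h2 (sq_nonneg _))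
  exact dist_eq_zero.mp h3

end Cones

/-- spaces with inner product tangent cones have logarithms -/
theorem logProp_of_cones {X : Type u} [MetricSpace X] (hX' : IsCAT0 X) (hC : EuclideanCones X) :
    LogProp X := by
  intro V _ _ f b hb
  have hX : Cat X := stmtCat X hX'
  obtain ⟨H, _, _, L, hL⟩ := hC b
  choose γ hγ using fun x => hX'.geod b x
  have hmem : Set.Ioo (0 : ℝ) 1 ∈ 𝓝[>] (0 : ℝ) := Ioo_mem_nhdsGT one_pos
  have hlim : ∀ x y, Tendsto (fun t : ℝ => dist (pt hX b x t) (pt hX b y t) / t) (𝓝[>] 0)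
      (𝓝 ‖L x - L y‖) := by
    intro x y
    refine (hL x y (γ x) (γ y) (hγ x) (hγ y)).congr' ?_
    filter_upwards [hmem] with t ht
    rw [eq_pt hX (hγ x) ht.1.le ht.2.le, eq_pt hX (hγ y) ht.1.le ht.2.le]
  have hn : ∀ x, ‖L x - L b‖ = dist b x := by
    intro x
    refine tendsto_nhds_unique (hlim x b) ?_
    refine tendsto_const_nhds.congr' ?_
    filter_upwards [hmem] with t ht
    rw [pt_self hX b ht.1.le ht.2.le, dist_comm (pt hX b x t) b, dist_pt_left hX b x ht.1.le ht.2.le,
      mul_div_cancel_left₀ _ ht.1.ne']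
  have e0 : ∀ x y, (L x - L b) - (L y - L b) = L x - L y := fun x y => by abel
  refine ⟨H, inferInstance, inferInstance, fun x => L x - L b, ?_, hn, ?_⟩
  · intro x y
    simp only [e0]
    refine le_of_tendsto (hlim x y) ?_
    filter_upwards [hmem] with t ht
    rw [div_le_iff₀ ht.1, mul_comm]
    exact dist_pt_pt_le hX b x y ht.1.le ht.2.le
  · have hw1 : ∑ _v : V, (1 : ℝ) / Fintype.card V = 1 := by
      have hV : (Fintype.card V : ℝ) ≠ 0 := (card_pos' (V := V)).ne'
      rw [Finset.sum_const, Finset.card_univ, nsmul_eq_mul]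
      field_simp
    have hw0 : ∀ _v : V, (0 : ℝ) ≤ 1 / Fintype.card V := fun _ => by positivity
    have hin : ∀ x y, inner ℝ (L x - L b) (L y - L b) =
        (dist b x ^ 2 + dist b y ^ 2 - ‖L x - L y‖ ^ 2) / 2 := by
      intro x y
      have h := norm_sub_sq_real (L x - L b) (L y - L b)
      rw [e0, hn, hn] at h
      linarith
    have hlim2 : Tendsto (fun t : ℝ => E2 fun a a' => (dist b (f a) ^ 2 + dist b (f a') ^ 2 -
        (dist (pt hX b (f a) t) (pt hX b (f a') t) / t) ^ 2) / 2) (𝓝[>] 0)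
        (𝓝 (E2 fun a a' => inner ℝ (L (f a) - L b) (L (f a') - L b))) := by
      unfold E2
      refine Tendsto.div_const (tendsto_finsetSum _ fun a _ => tendsto_finsetSum _ fun a' _ => ?_) _
      rw [hin]
      exact (tendsto_const_nhds.sub ((hlim (f a) (f a')).pow 2)).div_const 2
    refine le_of_tendsto hlim2 ?_
    filter_upwards [hmem] with t ht
    have h1 : ∀ a a', (dist b (f a) ^ 2 + dist b (f a') ^ 2 -
        (dist (pt hX b (f a) t) (pt hX b (f a') t) / t) ^ 2) / 2 =
        (1 / t ^ 2) * ip b (pt hX b (f a) t) (pt hX b (f a') t) := by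
      intro a a'
      have ht0 : t ≠ 0 := ht.1.ne'
      unfold ip
      rw [dist_pt_left hX b (f a) ht.1.le ht.2.le, dist_pt_left hX b (f a') ht.1.le ht.2.le]
      field_simp
    simp only [h1]
    rw [E2_mul]
    refine mul_nonpos_of_nonneg_of_nonpos (by positivity) ?_
    rw [E2_eq]
    have h2 : ∀ a, (E1 fun a' => ip b (pt hX b (f a) t) (pt hX b (f a') t)) ≤ 0 := by
      intro a
      have h3 := ip_contr_nonpos hX hw0 hw1 hb (pt hX b (f a) t) ht.1.le ht.2.le
      rw [← Finset.mul_sum] at h3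
      unfold E1
      rw [div_eq_inv_mul, ← one_div]
      exact h3
    have h3 := E1_mono h2
    rw [E1_const] at h3
    exact h3

section Inner

variable {H : Type u} [NormedAddCommGroup H] [InnerProductSpace ℝ H]

/-- inner product spaces satisfy the CAT(0) inequality -/
theorem cat_inner : Cat H := by
  intro x y t ht
  refine ⟨(1 - t) • x + t • y, fun z => le_of_eq ?_⟩
  have e1 : z - ((1 - t) • x + t • y) = (1 - t) • (z - x) + t • (z - y) := by module
  have e2 : x - y = (z - y) - (z - x) := by abel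
  rw [dist_eq_norm, dist_eq_norm, dist_eq_norm, dist_eq_norm, e1, e2, norm_add_sq_real,
    norm_sub_sq_real (z - y), norm_smul, norm_smul, mul_pow, mul_pow, real_inner_smul_left,
    real_inner_smul_right, Real.norm_eq_abs, Real.norm_eq_abs, sq_abs, sq_abs,
    real_inner_comm (z - x) (z - y)]
  ring

theorem log_inner : LogProp H := by
  intro V _ _ f b hb
  refine ⟨H, inferInstance, inferInstance, fun x => x - b, fun x y => ?_, fun x => ?_, ?_⟩
  · rw [sub_sub_sub_cancel_right, dist_eq_norm]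
  · rw [dist_comm, dist_eq_norm]
  · have hV : (0 : ℝ) < Fintype.card V := card_pos'
    obtain ⟨S, hS⟩ : ∃ S, S = ∑ v, (f v - b) := ⟨_, rfl⟩
    have e : E2 (fun a a' => inner ℝ (f a - b) (f a' - b)) = ‖S‖ ^ 2 / (Fintype.card V : ℝ) ^ 2 := by
      unfold E2
      congr 1
      rw [← real_inner_self_eq_norm_sq, hS, sum_inner]
      refine Finset.sum_congr rfl fun a _ => ?_
      rw [inner_sum]
    rw [e]
    have h := hb (b + S)
    unfold wv at h
    have e2 : ∀ v, 1 / (Fintype.card V : ℝ) * dist (f v) (b + S) ^ 2 =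
        1 / (Fintype.card V : ℝ) * dist (f v) b ^ 2 -
          2 / (Fintype.card V : ℝ) * inner ℝ (f v - b) S + 1 / (Fintype.card V : ℝ) * ‖S‖ ^ 2 := by
      intro v
      have e3 : f v - (b + S) = (f v - b) - S := by abel
      rw [dist_eq_norm, dist_eq_norm, e3, norm_sub_sq_real]
      ring
    rw [Finset.sum_congr rfl fun v _ => e2 v, Finset.sum_add_distrib, Finset.sum_sub_distrib,
      ← Finset.mul_sum _ _ (2 / (Fintype.card V : ℝ)), ← sum_inner, ← hS,
      real_inner_self_eq_norm_sq, Finset.sum_const, Finset.card_univ, nsmul_eq_mul,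
      dist_eq_norm b, sub_add_cancel_left, norm_neg] at h
    have e4 : (Fintype.card V : ℝ) * (1 / (Fintype.card V : ℝ) * ‖S‖ ^ 2) = ‖S‖ ^ 2 := by
      field_simp
    rw [e4] at h
    have h5 : 2 / (Fintype.card V : ℝ) * ‖S‖ ^ 2 ≤ 0 := by linarith
    have h6 : ‖S‖ ^ 2 ≤ 0 := by
      by_contra hcon
      push Not at hcon
      have : 0 < 2 / (Fintype.card V : ℝ) * ‖S‖ ^ 2 := by positivity
      linarith
    exact div_nonpos_of_nonpos_of_nonneg h6 (by positivity)

end Inner

end Vale.Agent.P172.H783
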