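import Vale.Agent.P172.R2.H783.Prod
import Vale.Agent.P172.R2.H783.Asm

/-!
# P172: fixed points for the subgroups of finite index, by induction of actions (helper783)
-/

namespace Vale.Agent.P172.H783

open Vale.Agent.P172

universe u

open Finset

noncomputable section

variable {G : Type} [Group G] (H : Subgroup G)

theorem coc_mem (g : G) (c : G ⧸ H) :
    (Quotient.out c)⁻¹ * (g * Quotient.out (g⁻¹ • c)) ∈ H := by
  rw [← QuotientGroup.eq, QuotientGroup.out_eq']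
  have : ((g * Quotient.out (g⁻¹ • c) : G) : G ⧸ H) =
      g • ((Quotient.out (g⁻¹ • c) : G) : G ⧸ H) := rfl
  rw [this, QuotientGroup.out_eq', smul_inv_smul]

/-- the cocycle of a section of `G → G ⧸ H` -/
def coc (g : G) (c : G ⧸ H) : H := ⟨_, coc_mem H g c⟩

theorem coc_one (c : G ⧸ H) : coc H 1 c = 1 := by
  apply Subtype.ext
  show (Quotient.out c)⁻¹ * (1 * Quotient.out ((1 : G)⁻¹ • c)) = 1
  rw [inv_one, one_smul, one_mul, inv_mul_cancel]

theorem coc_mul (g g' : G) (c : G ⧸ H) :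
    coc H (g * g') c = coc H g c * coc H g' (g⁻¹ • c) := by
  apply Subtype.ext
  show (Quotient.out c)⁻¹ * (g * g' * Quotient.out ((g * g')⁻¹ • c)) =
    ((Quotient.out c)⁻¹ * (g * Quotient.out (g⁻¹ • c))) *
      ((Quotient.out (g⁻¹ • c))⁻¹ * (g' * Quotient.out (g'⁻¹ • g⁻¹ • c)))
  rw [mul_inv_rev, mul_smul]
  group

variable {X : Type u} [MulAction H X]

/-- the induced action -/
@[reducible] def indAct : MulAction G (PiLp 2 (fun _ : G ⧸ H => X)) where
  smul g F := WithLp.toLp 2 fun c => coc H g c • F (g⁻¹ • c)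
  one_smul F := by
    ext c
    show coc H 1 c • F ((1 : G)⁻¹ • c) = F c
    rw [coc_one, one_smul, inv_one, one_smul]
  mul_smul g g' F := by
    ext c
    show coc H (g * g') c • F ((g * g')⁻¹ • c) =
      coc H g c • (coc H g' (g⁻¹ • c) • F (g'⁻¹ • g⁻¹ • c))
    rw [coc_mul, mul_smul, mul_inv_rev, mul_smul]

theorem ind_dist {ι : Type} [Fintype ι] {X : Type u} [MetricSpace X]
    (F F' : PiLp 2 (fun _ : ι => X)) : dist F F' ^ 2 = ∑ c, dist (F c) (F' c) ^ 2 := by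
  rw [PiLp.dist_eq_sum (by norm_num)]
  have h0 : 0 ≤ ∑ c, dist (F c) (F' c) ^ 2 := Finset.sum_nonneg fun _ _ => sq_nonneg _
  simp only [ENNReal.toReal_ofNat, Real.rpow_ofNat]
  rw [← Real.sqrt_eq_rpow, Real.sq_sqrt h0]

/-- fixed points for a subgroup of finite index -/
theorem virt {c ε : ℝ} (hc : 0 ≤ c) (hε : ε ≤ 1 / 20)
    (h6 : ∀ (X : Type u) [Nonempty X] [MetricSpace X] [CompleteSpace X] [MulAction G X]
      [IsIsometricSMul G X], Cat X → UGx X c ε → ∃ q : X, ∀ h : G, h • q = q)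
    (hH : H.FiniteIndex) [Nonempty X] [MetricSpace X] [CompleteSpace X]
    [IsIsometricSMul H X] (hX : Cat X) (hG : Gap X c ε) : ∃ q : X, ∀ h : H, h • q = q := by
  classical
  let _ : Fintype (G ⧸ H) := Fintype.ofFinite _
  let _ : MulAction G (PiLp 2 (fun _ : G ⧸ H => X)) := indAct H
  have hsm : ∀ (g : G) (F : PiLp 2 (fun _ : G ⧸ H => X)) (c : G ⧸ H),
      (g • F) c = coc H g c • F (g⁻¹ • c) := fun _ _ _ => rfl
  have _ : IsIsometricSMul G (PiLp 2 (fun _ : G ⧸ H => X)) := by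
    refine ⟨fun g => Isometry.of_dist_eq fun F F' => ?_⟩
    have h1 : dist (g • F) (g • F') ^ 2 = dist F F' ^ 2 := by
      rw [ind_dist, ind_dist]
      have e : ∀ c, dist ((g • F) c) ((g • F') c) ^ 2 =
          dist (F (g⁻¹ • c)) (F' (g⁻¹ • c)) ^ 2 := by
        intro c
        rw [hsm, hsm, dist_smul]
      rw [Finset.sum_congr rfl fun c _ => e c]
      exact Equiv.sum_comp (MulAction.toPerm g⁻¹) fun c => dist (F c) (F' c) ^ 2
    exact (pow_left_inj₀ dist_nonneg dist_nonneg two_ne_zero).mp h1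
  have hcat : Cat (PiLp 2 (fun _ : G ⧸ H => X)) := by
    intro F F' t ht
    choose m hm using fun c => hX (F c) (F' c) t ht
    refine ⟨WithLp.toLp 2 m, fun Z => ?_⟩
    rw [ind_dist, ind_dist, ind_dist, ind_dist, Finset.mul_sum, Finset.mul_sum, Finset.mul_sum,
      ← Finset.sum_add_distrib, ← Finset.sum_sub_distrib]
    exact Finset.sum_le_sum fun c _ => hm c (Z c)
  have hgap : Gap (PiLp 2 (fun _ : G ⧸ H => X)) c ε := by
    refine gap_prod (π := fun (c : G ⧸ H) (F : PiLp 2 (fun _ : G ⧸ H => X)) => F c) hcat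
      (fun _ => hX) hc hε (fun _ => hG) fun F F' => ?_
    rw [ind_dist]
    exact hasSum_fintype _
  have hne : Nonempty (PiLp 2 (fun _ : G ⧸ H => X)) := by
    obtain ⟨x⟩ := (inferInstance : Nonempty X)
    exact ⟨WithLp.toLp 2 fun _ => x⟩
  obtain ⟨F, hF⟩ := h6 (PiLp 2 (fun _ : G ⧸ H => X)) hcat (ugx_of_gap hcat hc hε hgap)
  obtain ⟨c₀, hc₀⟩ : ∃ c₀ : G ⧸ H, c₀ = ((1 : G) : G ⧸ H) := ⟨_, rfl⟩
  obtain ⟨s₀, hs₀⟩ : ∃ s₀ : G, s₀ = Quotient.out c₀ := ⟨_, rfl⟩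
  have hs₀H : s₀ ∈ H := by
    have h1 : ((1 : G) : G ⧸ H) = (s₀ : G ⧸ H) := by
      rw [hs₀, QuotientGroup.out_eq', hc₀]
    rw [QuotientGroup.eq] at h1
    simpa using h1
  refine ⟨F c₀, fun h => ?_⟩
  obtain ⟨g, hg⟩ : ∃ g : G, g = s₀ * h * s₀⁻¹ := ⟨_, rfl⟩
  have hgH : g ∈ H := by
    rw [hg]
    exact H.mul_mem (H.mul_mem hs₀H h.2) (H.inv_mem hs₀H)
  have hgc : g⁻¹ • c₀ = c₀ := by
    rw [hc₀]
    show ((g⁻¹ * 1 : G) : G ⧸ H) = ((1 : G) : G ⧸ H)
    rw [QuotientGroup.eq]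
    simpa using hgH
  have hco : coc H g c₀ = h := by
    apply Subtype.ext
    show (Quotient.out c₀)⁻¹ * (g * Quotient.out (g⁻¹ • c₀)) = h
    rw [hgc, ← hs₀, hg]
    group
  have h1 := hsm g F c₀
  rw [hF g, hgc, hco] at h1
  exact h1.symm

end

end Vale.Agent.P172.H783
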