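import Mathlib

/-!
# P172: groups with property FH have bounded orbits on spaces with walls (helper783)
-/

namespace Vale.Agent.P172.H783

open scoped Pointwise

universe u

noncomputable section

variable {G : Type} [Group G] {S : Type u} [MulAction G S] (𝒲 : Set (Set S))

/-- permutation of the half-spaces -/
def wperm (h : ∀ g : G, ∀ W ∈ 𝒲, g • W ∈ 𝒲) (g : G) : 𝒲 ≃ 𝒲 where
  toFun W := ⟨g⁻¹ • W.1, h g⁻¹ W.1 W.2⟩
  invFun W := ⟨g • W.1, h g W.1 W.2⟩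
  left_inv W := by simp
  right_inv W := by simp

open Classical in
/-- indicator -/
def wind (x : S) (W : 𝒲) : ℝ := if x ∈ W.1 then 1 else 0

theorem wind_perm (h : ∀ g : G, ∀ W ∈ 𝒲, g • W ∈ 𝒲) (g : G) (x : S) (W : 𝒲) :
    wind 𝒲 x (wperm 𝒲 h g W) = wind 𝒲 (g • x) W := by
  have e : (wperm 𝒲 h g W).1 = g⁻¹ • W.1 := rfl
  have h1 : x ∈ g⁻¹ • W.1 ↔ g • x ∈ W.1 := by
    rw [Set.mem_inv_smul_set_iff]
  unfold wind
  rw [e]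
  by_cases hx : g • x ∈ W.1
  · rw [if_pos hx, if_pos (h1.mpr hx)]
  · rw [if_neg hx, if_neg fun h2 => hx (h1.mp h2)]

theorem wperm_mul (h : ∀ g : G, ∀ W ∈ 𝒲, g • W ∈ 𝒲) (g g' : G) (W : 𝒲) :
    wperm 𝒲 h (g * g') W = wperm 𝒲 h g' (wperm 𝒲 h g W) := by
  unfold wperm
  simp [mul_smul]

theorem wperm_one (h : ∀ g : G, ∀ W ∈ 𝒲, g • W ∈ 𝒲) (W : 𝒲) : wperm 𝒲 h 1 W = W := by
  unfold wperm
  simp

variable {𝒲}

theorem wind_mem (hf : ∀ x y : S, {W ∈ 𝒲 | x ∈ W ∧ y ∉ W}.Finite) (x y : S) :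
    Memℓp (fun W : 𝒲 => wind 𝒲 x W - wind 𝒲 y W) 2 := by
  classical
  rw [memℓp_gen_iff (by norm_num)]
  have h1 : (Function.support fun W : 𝒲 => ‖wind 𝒲 x W - wind 𝒲 y W‖ ^ (2 : ENNReal).toReal).Finite := by
    have h2 : ((fun W : 𝒲 => W.1) ⁻¹' ({W ∈ 𝒲 | x ∈ W ∧ y ∉ W} ∪ {W ∈ 𝒲 | y ∈ W ∧ x ∉ W})).Finite :=
      ((hf x y).union (hf y x)).preimage Subtype.val_injective.injOn
    refine h2.subset ?_
    intro W hW
    simp only [Set.mem_preimage, Set.mem_union, Set.mem_ofPred_eq]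
    by_contra hcon
    push Not at hcon
    apply hW
    have h3 : wind 𝒲 x W = wind 𝒲 y W := by
      unfold wind
      by_cases ha : x ∈ W.1
      · have hb := hcon.1 W.2 ha
        rw [if_pos ha, if_pos hb]
      · by_cases hb : y ∈ W.1
        · exact absurd (hcon.2 W.2 hb) ha
        · rw [if_neg ha, if_neg hb]
    show ‖wind 𝒲 x W - wind 𝒲 y W‖ ^ (2 : ENNReal).toReal = 0
    rw [h3, sub_self, norm_zero]
    norm_num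
  exact summable_of_hasFiniteSupport h1

theorem perm_mem (h : ∀ g : G, ∀ W ∈ 𝒲, g • W ∈ 𝒲) (g : G) {ξ : 𝒲 → ℝ} (hξ : Memℓp ξ 2) :
    Memℓp (fun W => ξ (wperm 𝒲 h g W)) 2 := by
  rw [memℓp_gen_iff (by norm_num)] at hξ ⊢
  exact (wperm 𝒲 h g).summable_iff.mpr hξ

/-- the affine isometric action on `ℓ²` of the half-spaces -/
abbrev wact (h : ∀ g : G, ∀ W ∈ 𝒲, g • W ∈ 𝒲) (hf : ∀ x y : S, {W ∈ 𝒲 | x ∈ W ∧ y ∉ W}.Finite)
    (x : S) : MulAction G (lp (fun _ : 𝒲 => ℝ) 2) where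
  smul g ξ := ⟨fun W => ξ.1 (wperm 𝒲 h g W), perm_mem h g ξ.2⟩ +
    ⟨fun W => wind 𝒲 (g • x) W - wind 𝒲 x W, wind_mem hf _ _⟩
  one_smul ξ := by
    apply Subtype.ext
    funext W
    show ξ.1 (wperm 𝒲 h 1 W) + (wind 𝒲 ((1 : G) • x) W - wind 𝒲 x W) = ξ.1 W
    rw [wperm_one, one_smul, sub_self, add_zero]
  mul_smul g g' ξ := by
    apply Subtype.ext
    funext W
    show ξ.1 (wperm 𝒲 h (g * g') W) + (wind 𝒲 ((g * g') • x) W - wind 𝒲 x W) =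
      (ξ.1 (wperm 𝒲 h g' (wperm 𝒲 h g W)) + (wind 𝒲 (g' • x) (wperm 𝒲 h g W) -
        wind 𝒲 x (wperm 𝒲 h g W))) + (wind 𝒲 (g • x) W - wind 𝒲 x W)
    rw [wperm_mul, wind_perm, wind_perm, mul_smul]
    ring

theorem wact_dist (h : ∀ g : G, ∀ W ∈ 𝒲, g • W ∈ 𝒲)
    (hf : ∀ x y : S, {W ∈ 𝒲 | x ∈ W ∧ y ∉ W}.Finite) (x : S) (g : G)
    (ξ η : lp (fun _ : 𝒲 => ℝ) 2) :
    dist ((wact h hf x).smul g ξ) ((wact h hf x).smul g η) = dist ξ η := by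
  rw [dist_eq_norm, dist_eq_norm]
  rw [lp.norm_eq_tsum_rpow (by norm_num), lp.norm_eq_tsum_rpow (by norm_num)]
  congr 1
  rw [← (wperm 𝒲 h g).tsum_eq fun W => ‖(ξ - η : lp (fun _ : 𝒲 => ℝ) 2).1 W‖ ^
    (2 : ENNReal).toReal]
  refine tsum_congr fun W => ?_
  congr 2
  show (ξ.1 (wperm 𝒲 h g W) + (wind 𝒲 (g • x) W - wind 𝒲 x W)) -
    (η.1 (wperm 𝒲 h g W) + (wind 𝒲 (g • x) W - wind 𝒲 x W)) =
      ξ.1 (wperm 𝒲 h g W) - η.1 (wperm 𝒲 h g W)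
  ring

/-- bounded orbits on spaces with walls -/
theorem bounded_of_fh (hG : ∀ (H : Type u) [NormedAddCommGroup H] [InnerProductSpace ℝ H]
      [CompleteSpace H] [MulAction G H] [IsIsometricSMul G H], ∃ q : H, ∀ g : G, g • q = q)
    (h : ∀ g : G, ∀ W ∈ 𝒲, g • W ∈ 𝒲) (hf : ∀ x y : S, {W ∈ 𝒲 | x ∈ W ∧ y ∉ W}.Finite) (x : S) :
    ∃ N : ℕ, ∀ g : G, {W ∈ 𝒲 | x ∈ W ∧ g • x ∉ W}.ncard ≤ N := by
  classical
  let _ : MulAction G (lp (fun _ : 𝒲 => ℝ) 2) := wact h hf x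
  have _ : IsIsometricSMul G (lp (fun _ : 𝒲 => ℝ) 2) :=
    ⟨fun g => Isometry.of_dist_eq fun ξ η => wact_dist h hf x g ξ η⟩
  obtain ⟨q, hq⟩ := hG (lp (fun _ : 𝒲 => ℝ) 2)
  refine ⟨⌈(2 * ‖q‖) ^ 2⌉₊, fun g => ?_⟩
  have h1 : ‖g • (0 : lp (fun _ : 𝒲 => ℝ) 2)‖ ≤ 2 * ‖q‖ := by
    have h2 : dist (g • (0 : lp (fun _ : 𝒲 => ℝ) 2)) (g • q) = dist 0 q := dist_smul g 0 q
    rw [hq g, dist_eq_norm, dist_eq_norm, zero_sub, norm_neg] at h2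
    have h3 := norm_add_le (g • (0 : lp (fun _ : 𝒲 => ℝ) 2) - q) q
    rw [sub_add_cancel] at h3
    linarith
  have hval : ∀ W : 𝒲, (g • (0 : lp (fun _ : 𝒲 => ℝ) 2)).1 W = wind 𝒲 (g • x) W - wind 𝒲 x W := by
    intro W
    show (0 : ℝ) + (wind 𝒲 (g • x) W - wind 𝒲 x W) = _
    rw [zero_add]
  have h2 : ((hf x (g • x)).toFinset.card : ℝ) ≤ ‖g • (0 : lp (fun _ : 𝒲 => ℝ) 2)‖ ^ 2 := by
    obtain ⟨T, hT⟩ : ∃ T : Finset 𝒲, T = (hf x (g • x)).toFinset.subtype (fun W => W ∈ 𝒲) := ⟨_, rfl⟩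
    have hcard : T.card = (hf x (g • x)).toFinset.card := by
      rw [hT, Finset.card_subtype, Finset.filter_true_of_mem]
      intro W hW
      rw [Set.Finite.mem_toFinset] at hW
      exact hW.1
    have h3 := lp.sum_rpow_le_norm_rpow (p := 2) (by norm_num)
      (g • (0 : lp (fun _ : 𝒲 => ℝ) 2)) T
    have h4 : ∀ W ∈ T, ‖(g • (0 : lp (fun _ : 𝒲 => ℝ) 2)).1 W‖ ^ (2 : ENNReal).toReal = 1 := by
      intro W hW
      rw [hT, Finset.mem_subtype, Set.Finite.mem_toFinset] at hW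
      rw [hval]
      unfold wind
      rw [if_neg hW.2.2, if_pos hW.2.1]
      norm_num
    rw [Finset.sum_congr rfl h4, Finset.sum_const, nsmul_eq_mul, mul_one, hcard] at h3
    simpa using h3
  have h3 : ‖g • (0 : lp (fun _ : 𝒲 => ℝ) 2)‖ ^ 2 ≤ (2 * ‖q‖) ^ 2 :=
    pow_le_pow_left₀ (norm_nonneg _) h1 2
  rw [Set.ncard_eq_toFinset_card _ (hf x (g • x))]
  have h4 : ((hf x (g • x)).toFinset.card : ℝ) ≤ ((⌈(2 * ‖q‖) ^ 2⌉₊ : ℕ) : ℝ) :=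
    (h2.trans h3).trans (Nat.le_ceil _)
  exact_mod_cast h4

end

end Vale.Agent.P172.H783
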