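import Vale.Agent.P172.R2.H783.Final2
import Vale.Agent.P172.R2.H783.Log
import Vale.Agent.P172.R2.H783.IN
import Vale.Agent.P172.R2.H783.Walls
import Vale.Agent.P172.R2.H783.Approx
import Vale.Agent.P172.R2.H783.Virt

/-!
# P172: an infinite family of groups with the fixed point properties (helper783)
-/

namespace Vale.Agent.P172.H783

open Vale.Agent.P172

universe u v w

/-- the conjunction proved in the hand-in `P172.ProductSpaces` for each group of the family -/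
def FixAll (n : ℕ) (δ : ℝ) (G : Type) [Group G] : Prop :=
    Vale.Agent.P186.IsHyperbolicGroup G ∧ Infinite G ∧
    (∀ g : G, ∀ m : ℕ, 0 < m → g ^ m = 1 → g = 1) ∧
    HasAsphPres G ∧ HasFreeRes2 G ∧
    ∀ Γ : Subgroup G, Γ.FiniteIndex →
    (∀ (X : Type u) [Nonempty X] [MetricSpace X] [CompleteSpace X] [MulAction Γ X]
      [IsIsometricSMul Γ X], IsCAT0 X →
      (∀ (F : Finset X) (η : ℝ), 0 < η → ∃ (I : Type v) (Y : I → Type w)
        (_ : ∀ i, MetricSpace (Y i)) (π : (i : I) → X → Y i),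
        (∀ i, CompleteSpace (Y i) ∧ IsCAT0 (Y i) ∧
          (GeomDimLE (Y i) n ∨ EuclideanCones (Y i) ∨ IzekiNayataniLE (Y i) δ)) ∧
        ∀ x ∈ F, ∀ y ∈ F, ∃ d : ℝ, 0 ≤ d ∧ |d - dist x y| ≤ η ∧
          HasSum (fun i => dist (π i x) (π i y) ^ 2) (d ^ 2)) →
      ∃ q : X, ∀ g : Γ, g • q = q) ∧
    (∀ (H : Type u) [NormedAddCommGroup H] [InnerProductSpace ℝ H] [CompleteSpace H]
      [MulAction Γ H] [IsIsometricSMul Γ H], ∃ q : H, ∀ g : Γ, g • q = q) ∧
    (∀ (S : Type u) [MulAction Γ S] (W : Set (Set S)),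
      (∀ g : Γ, ∀ A ∈ W, (fun s => g • s) '' A ∈ W) →
      (∀ x y : S, {A ∈ W | x ∈ A ∧ y ∉ A}.Finite) →
      ∀ x : S, ∃ N : ℕ, ∀ g : Γ, {A ∈ W | x ∈ A ∧ g • x ∉ A}.ncard ≤ N)

theorem fixAll (n : ℕ) (δ : ℝ) (hδ : δ < 1 / 2) (M : ℕ) : ∃ (G : Type) (_ : Group G),
    FixAll.{u, v, w} n δ G ∧ ∃ a b, AsphN G a b ∧ b + M ≤ a := by
  obtain ⟨s, hs⟩ : ∃ s, s = min (1 - 2 * δ) 1 := ⟨_, rfl⟩
  have hs0 : 0 < s := by
    rw [hs]
    exact lt_min (by linarith) one_pos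
  have hs1 : s ≤ 1 := by
    rw [hs]
    exact min_le_right _ _
  have hs2 : s ≤ 1 - 2 * δ := by
    rw [hs]
    exact min_le_left _ _
  obtain ⟨c, hc⟩ : ∃ c, c = min (cst n) (s ^ 2 / 1000) := ⟨_, rfl⟩
  have hc0 : 0 < c := by
    rw [hc]
    exact lt_min (cst_pos n) (by positivity)
  have hcn : c ≤ cst n := by
    rw [hc]
    exact min_le_left _ _
  have hcs : c ≤ s ^ 2 / 1000 := by
    rw [hc]
    exact min_le_right _ _
  have hcs' : c ≤ s / 2 := by
    have : s ^ 2 ≤ s := by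
      rw [sq]
      nlinarith
    linarith
  have hc1 : c ≤ 1 / 1000 := hcn.trans (cst_le n)
  obtain ⟨G, _, h1, h2, h3, h4, h5, h8, h6⟩ := final4.{u} (c := c) (ε := c) hc0
    (by linarith) hc0 M
  refine ⟨G, inferInstance, ⟨h1, h2, h3, h4, h5, fun Γ hΓ => ?_⟩, h8⟩
  have h7 : ∀ (H : Type u) [NormedAddCommGroup H] [InnerProductSpace ℝ H] [CompleteSpace H]
      [MulAction Γ H] [IsIsometricSMul Γ H], ∃ q : H, ∀ g : Γ, g • q = q := by
    intro H _ _ _ _ _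
    exact virt Γ hc0.le (by linarith) h6 hΓ cat_inner ((gap_log cat_inner log_inner n).mono hcn hcn)
  refine ⟨?_, h7, fun S _ W hW hf x => bounded_of_fh h7 hW hf x⟩
  intro X _ _ _ _ _ hX hA
  have hcat : Cat X := stmtCat X hX
  refine virt Γ hc0.le (by linarith) h6 hΓ hcat
    (gap_approx hcat hc0.le (by linarith) fun F η hη => ?_)
  obtain ⟨I, Y, mY, π, hY, hπ⟩ := hA F η hη
  refine ⟨I, Y, mY, π, fun i => (hY i).1, fun i => stmtCat (Y i) (hY i).2.1, fun i => ?_, hπ⟩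
  have := (hY i).1
  have hcatY : Cat (Y i) := stmtCat (Y i) (hY i).2.1
  rcases (hY i).2.2 with h | h | h
  · exact (gap_cst n (Y i) hcatY (jung_of_geomDim (Y i) n hcatY h)).mono hcn hcn
  · exact (gap_log hcatY (logProp_of_cones (hY i).2.1 h) n).mono hcn hcn
  · exact (gap_in hcatY hs0 hs1 hs2 h).mono hcs' hcs

/-- groups with arbitrarily large Euler characteristic give infinitely many groups -/
theorem exists_family (Φ : ∀ (G : Type) [Group G], Prop)
    (h : ∀ M : ℕ, ∃ (G : Type) (_ : Group G), Φ G ∧ ∃ a b, AsphN G a b ∧ b + M ≤ a) :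
    ∃ (G : ℕ → Type) (_ : ∀ i, Group (G i)),
      (∀ i j, Nonempty (G i ≃* G j) → i = j) ∧ ∀ i, Φ (G i) := by
  classical
  obtain ⟨D, hD⟩ : ∃ D : Set ℕ, D = {d | ∃ (G : Type) (_ : Group G), Φ G ∧
      ∃ a b, AsphN G a b ∧ a = b + d} := ⟨_, rfl⟩
  have hinf : D.Infinite := by
    refine Set.infinite_of_not_bddAbove ?_
    rintro ⟨M, hM⟩
    obtain ⟨G, _, hG, a, b, hab, hle⟩ := h (M + 1)
    have h1 : a - b ∈ D := by
      rw [hD]
      exact ⟨G, inferInstance, hG, a, b, hab, by omega⟩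
    have := hM h1
    omega
  have hmem : ∀ i : ℕ, ((hinf.natEmbedding D i : D) : ℕ) ∈ {d | ∃ (G : Type) (_ : Group G),
      Φ G ∧ ∃ a b, AsphN G a b ∧ a = b + d} := by
    intro i
    rw [← hD]
    exact (hinf.natEmbedding D i).2
  choose G iG hG a b hab he using hmem
  refine ⟨G, iG, ?_, hG⟩
  rintro i j ⟨e⟩
  have h1 := asphN_unique e (hab i) (hab j)
  rw [he i, he j] at h1
  have h2 : ((hinf.natEmbedding D i : D) : ℕ) = ((hinf.natEmbedding D j : D) : ℕ) := by omega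
  exact (hinf.natEmbedding D).injective (Subtype.ext h2)

end Vale.Agent.P172.H783
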