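import Vale.Agent.P172.R2.H783.Asm
import Vale.Agent.P172.Rand
import Vale.Agent.P172.JungK
import Vale.Agent.P172.Grp2

/-!
# P172: the group with fixed points on all spaces with the gap (helper783, after Asm4 of helper218)
-/

namespace Vale.Agent.P172.H783

open Vale.Agent.P172

universe u v w

open Finset

theorem final3 {c ε : ℝ} (hc : 0 < c) (hc1 : c ≤ 1) (hε : 0 < ε) : ∃ (G : Type) (_ : Group G),
    Vale.Agent.P186.IsHyperbolicGroup G ∧ Infinite G ∧
    (∀ h : G, ∀ m : ℕ, 0 < m → h ^ m = 1 → h = 1) ∧ HasAsphPres G ∧ HasFreeRes2 G ∧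
    ∀ (X : Type u) [Nonempty X] [MetricSpace X] [CompleteSpace X] [MulAction G X]
      [IsIsometricSMul G X], Cat X → UGx X c ε → ∃ q : X, ∀ h : G, h • q = q := by
  classical
  obtain ⟨m, hm⟩ := pow_unbounded_of_one_lt (4 : ℝ) (show (1 : ℝ) < 1 + c / 2 by linarith)
  obtain ⟨ε₂, hε₂⟩ : ∃ ε₂, ε₂ = min ε (c / 10) := ⟨_, rfl⟩
  have hε₂0 : 0 < ε₂ := by
    rw [hε₂]
    exact lt_min hε (by linarith)
  have hε₂1 : ε₂ ≤ ε := by
    rw [hε₂]
    exact min_le_left _ _
  have hε₂2 : ε₂ ≤ c / 10 := by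
    rw [hε₂]
    exact min_le_right _ _
  set P : ℕ := 2 * (m + 1) with hP
  have hPr : (0 : ℝ) < P := by
    rw [hP]; positivity
  set e : ℝ := 1 / (24 * P) with he
  have he0 : 0 < e := by positivity
  obtain ⟨K, Y₀, hG⟩ := stmtGrp2 e he0
  set T : ℕ := 2 * (Y₀ + 2) + 1 with hT
  set k : ℕ → ℕ := fun j => T * (P + j) with hk
  set Y : ℕ := T * (6 * P - 2) with hY
  have hlen : ∀ j, 2 * k j + k (j + 1) = T * (3 * (P + j) + 1) := by
    intro j
    simp only [hk]
    ring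
  have hk0 : 0 < k 0 := by
    simp only [hk]
    positivity
  have hkk : ∀ j, k (j + 1) = k j + T := by
    intro j
    simp only [hk]
    ring
  have hodd : Odd (k 1) := by
    simp only [hk]
    refine Odd.mul ⟨Y₀ + 2, rfl⟩ ⟨m + 1, by rw [hP]⟩
  choose N₃ hN₃ using fun j => stmtGood.{u} (k j) (c / 10) (by linarith)
  obtain ⟨N₁, hN₁⟩ : ∃ N₁ : ℕ, N₁ = (∑ j ∈ Finset.range P, N₃ j) + k 0 := ⟨_, rfl⟩
  obtain ⟨N₂, hN₂⟩ := stmtRand P k e ε₂ (K * Y) he0 hε₂0 hk0
    (fun j _ => by rw [hkk]; omega)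
    (fun j _ => by
      simp only [hk]
      have : T * (2 * (P + (j + 1))) ≤ T * (3 * (P + j)) := Nat.mul_le_mul_left _ (by omega)
      nlinarith)
    (fun j hj => by
      have h1 : ((2 * k j + k (j + 1) : ℕ) : ℝ) = T * (3 * (P + j) + 1) := by
        rw [hlen]; push_cast; ring
      push_cast at h1
      rw [h1]
      have h2 : (k (j + 1) : ℝ) = k j + T := by rw [hkk]; push_cast; ring
      rw [h2]
      have h3 : (3 * ((P : ℝ) + j) + 1) ≤ 6 * P := by
        have : 3 * (P + j) + 1 ≤ 6 * P := by omega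
        exact_mod_cast this
      have h4 : (5 : ℝ) ≤ T := by
        have : 5 ≤ T := by omega
        exact_mod_cast this
      have h5 : e * (T * (3 * ((P : ℝ) + j) + 1)) ≤ e * (T * (6 * P)) := by
        have : (0 : ℝ) ≤ T := by linarith
        gcongr
      have h6 : e * (T * (6 * P)) = T / 4 := by
        rw [he]; field_simp; ring
      linarith)
  obtain ⟨Rel, h1, h2, h3, h4, h5⟩ := hN₂ (N₁ + N₂ + 1) (by omega)
  set W : Finset (List (Al (N₁ + N₂ + 1))) := (Finset.range P).biUnion fun j =>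
      (Rel j).image fun t => relWord t.1 t.2.1 t.2.2 with hW
  have hmem : ∀ w ∈ W, ∃ j < P, ∃ t ∈ Rel j, relWord t.1 t.2.1 t.2.2 = w := by
    intro w hw
    rw [hW, Finset.mem_biUnion] at hw
    obtain ⟨j, hj, hw⟩ := hw
    rw [Finset.mem_image] at hw
    exact ⟨j, Finset.mem_range.1 hj, hw⟩
  have hmem' : ∀ j < P, ∀ t ∈ Rel j, relWord t.1 t.2.1 t.2.2 ∈ W := by
    intro j hj t ht
    rw [hW, Finset.mem_biUnion]
    exact ⟨j, Finset.mem_range.2 hj, Finset.mem_image_of_mem _ ht⟩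
  obtain ⟨g1, g2, g3, g4, g5⟩ := hG Y (by
      rw [hY]
      calc Y₀ ≤ T * 1 := by omega
        _ ≤ T * (6 * P - 2) := Nat.mul_le_mul_left _ (by omega)) (N₁ + N₂) W
    (by
      intro w hw
      obtain ⟨j, hj, t, ht, rfl⟩ := hmem w hw
      rw [Rnd.length_relWord, hlen, hY]
      constructor
      · calc T * (6 * P - 2) ≤ T * (2 * (3 * (P + j) + 1)) := Nat.mul_le_mul_left _ (by omega)
          _ = 2 * (T * (3 * (P + j) + 1)) := by ring
      · exact Nat.mul_le_mul_left _ (by omega))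
    (by
      intro w hw
      obtain ⟨j, hj, t, ht, rfl⟩ := hmem w hw
      exact h1 j hj t ht) (by convert h5)
  refine ⟨Gr W, inferInstance, g1, ?_, g2, g5, g3, ?_⟩
  · by_contra hinf
    rw [not_infinite_iff_finite] at hinf
    exact g4 0 (g2 _ (Nat.card (Gr W)) Nat.card_pos (pow_card_eq_one'))
  · intro X _ _ _ _ _ hX hUG
    refine asm1x hc hc1 hε₂1 hε₂2 (hm.trans_le (pow_le_pow_right₀ (by linarith) (by omega)))
      hk0 (fun j => by rw [hkk]; omega) (by simp only [hk]; ring_nf; omega) hodd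
      (by omega) Rel hmem' (fun j hj => ?_) (fun j hj c => ?_) hX
      hUG (fun j hj x q => ?_)
    · convert h3 j hj
    · convert h4 j hj c
    · refine hN₃ j (N₁ + N₂ + 1) ?_ (Gr W) X (gG W) x q
      have := Finset.single_le_sum (f := N₃) (fun i _ => Nat.zero_le _) (Finset.mem_range.mpr hj)
      omega

end Vale.Agent.P172.H783
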