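import Vale.Agent.P172.R2.H783.Gap

/-!
# P172: linear mixing on quasi-random graphs (helper783)
-/

namespace Vale.Agent.P172.H783

open Vale.Agent.P172

universe u

open Finset

variable {V : Type} [Fintype V] {adj : V → V → Prop} {p ε m : ℝ}

theorem sum_ite_off [DecidableEq V] (v : V) (a : ℝ) :
    ∑ v' : V, (if v = v' then 0 else a) = ((Fintype.card V : ℝ) - 1) * a := by
  have : ∀ v' : V, (if v = v' then (0 : ℝ) else a) = a - (if v = v' then a else 0) := by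
    intro v'
    split_ifs <;> ring
  rw [Finset.sum_congr rfl fun v' _ => this v', Finset.sum_sub_distrib, Finset.sum_const,
    Finset.card_univ, nsmul_eq_mul, Finset.sum_ite_eq]
  simp only [Finset.mem_univ, if_true]
  ring

theorem card_sub_one (Q : QF adj p ε m) (hp1 : p ≤ 1) :
    (1 - ε) * (Fintype.card V : ℝ) ≤ (Fintype.card V : ℝ) - 1 := by
  have h1 := Q.big
  have h2 := Q.meq
  have h3 : m ≤ Fintype.card V := by
    rw [h2]
    calc (Fintype.card V : ℝ) * p ^ 2 ≤ Fintype.card V * 1 :=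
          mul_le_mul_of_nonneg_left (pow_le_one₀ Q.p0.le hp1) (Nat.cast_nonneg _)
      _ = _ := mul_one _
  have h4 := mul_le_mul_of_nonneg_left h3 Q.ε0.le
  linarith

/-- lower bound of the degrees, first side -/
theorem row_lower (Q : QF adj p ε m) (hp1 : p ≤ 1) (u : V) :
    (1 - 3 * ε) * (Fintype.card V * p) ≤ ∑ v, Mi adj u v := by
  classical
  have hn := Q.n0
  have hp := Q.p0
  have hε := Q.ε0
  have hε1 := Q.ε1
  have hm := Q.m0
  have h1 : ∑ u', cc adj u u' = ∑ v, Mi adj u v * ∑ u', Mi adj u' v := by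
    simp only [cc_eq]
    rw [Finset.sum_comm]
    exact Finset.sum_congr rfl fun v _ => (Finset.mul_sum _ _ _).symm
  have h2 : ∑ v, Mi adj u v * ∑ u', Mi adj u' v ≤
      (∑ v, Mi adj u v) * ((1 + ε) * (Fintype.card V * p)) := by
    rw [Finset.sum_mul]
    exact Finset.sum_le_sum fun v _ => mul_le_mul_of_nonneg_left (Q.deg v) (Mi_nonneg adj u v)
  have h3 : ((Fintype.card V : ℝ) - 1) * ((1 - ε) * m) ≤ ∑ u', cc adj u u' := by
    rw [← sum_ite_off u]
    refine Finset.sum_le_sum fun u' _ => ?_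
    split_ifs with h
    · unfold cc
      exact Nat.cast_nonneg _
    · exact Q.row1 u u' h
  have h4 := card_sub_one Q hp1
  have h5 : (1 - ε) * (Fintype.card V : ℝ) * ((1 - ε) * m) ≤
      ((Fintype.card V : ℝ) - 1) * ((1 - ε) * m) :=
    mul_le_mul_of_nonneg_right h4 (mul_nonneg (by linarith) hm.le)
  obtain ⟨n, hn'⟩ : ∃ n : ℝ, n = Fintype.card V := ⟨_, rfl⟩
  have hmeq := Q.meq
  rw [← hn'] at hn h2 h3 h4 h5 hmeq ⊢
  obtain ⟨d, hd⟩ : ∃ d, d = ∑ v, Mi adj u v := ⟨_, rfl⟩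
  rw [← hd] at h2 ⊢
  have h6 : (1 - ε) * n * ((1 - ε) * m) ≤ d * ((1 + ε) * (n * p)) := by linarith
  have h7 : (1 + ε) * (n * p) * ((1 - 3 * ε) * (n * p)) ≤ (1 + ε) * (n * p) * d := by
    have e1 : (1 - ε) * n * ((1 - ε) * m) = (1 - ε) ^ 2 * (n * p) ^ 2 := by
      rw [hmeq]
      ring
    have e2 : (1 + ε) * (n * p) * ((1 - 3 * ε) * (n * p)) =
        ((1 + ε) * (1 - 3 * ε)) * (n * p) ^ 2 := by ring
    rw [e1] at h6
    rw [e2]
    have h8 : ((1 + ε) * (1 - 3 * ε)) * (n * p) ^ 2 ≤ (1 - ε) ^ 2 * (n * p) ^ 2 :=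
      mul_le_mul_of_nonneg_right (by nlinarith) (sq_nonneg _)
    linarith
  exact le_of_mul_le_mul_left h7 (by positivity)

/-- lower bound of the degrees, second side -/
theorem col_lower (Q : QF adj p ε m) (hp1 : p ≤ 1) (v : V) :
    (1 - 6 * ε) * (Fintype.card V * p) ≤ ∑ u, Mi adj u v := by
  classical
  have hn := Q.n0
  have hp := Q.p0
  have hε := Q.ε0
  have hε1 := Q.ε1
  have hm := Q.m0
  have h1 : ∑ v', (∑ u, Mi adj u v * Mi adj u v') ^ 2 =
      ∑ u, ∑ u', Mi adj u v * Mi adj u' v * cc adj u u' := by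
    have e : ∀ v', (∑ u, Mi adj u v * Mi adj u v') ^ 2 =
        ∑ u, ∑ u', Mi adj u v * Mi adj u' v * (Mi adj u v' * Mi adj u' v') := by
      intro v'
      rw [sq, Finset.sum_mul_sum]
      refine Finset.sum_congr rfl fun u _ => Finset.sum_congr rfl fun u' _ => ?_
      ring
    rw [Finset.sum_congr rfl fun v' _ => e v', Finset.sum_comm]
    refine Finset.sum_congr rfl fun u _ => ?_
    rw [Finset.sum_comm]
    refine Finset.sum_congr rfl fun u' _ => ?_
    rw [cc_eq, Finset.mul_sum]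
  have h2 : ((Fintype.card V : ℝ) - 1) * ((1 - ε) * m) ^ 2 ≤
      ∑ v', (∑ u, Mi adj u v * Mi adj u v') ^ 2 := by
    rw [← sum_ite_off v]
    refine Finset.sum_le_sum fun v' _ => ?_
    split_ifs with h
    · exact sq_nonneg _
    · exact pow_le_pow_left₀ (mul_nonneg (by linarith) hm.le) (Q.col1 v v' h) 2
  have h3 : ∑ u, ∑ u', Mi adj u v * Mi adj u' v * cc adj u u' ≤
      (1 + ε) * m * (∑ u, Mi adj u v) ^ 2 + ∑ u, Mi adj u v * cc adj u u := by
    have h4 : ∀ u u', Mi adj u v * Mi adj u' v * cc adj u u' ≤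
        (1 + ε) * m * (Mi adj u v * Mi adj u' v) +
          (if u = u' then Mi adj u v * cc adj u u else 0) := by
      intro u u'
      have ha := Mi_nonneg adj u v
      have hb := Mi_nonneg adj u' v
      have hab : 0 ≤ Mi adj u v * Mi adj u' v := mul_nonneg ha hb
      split_ifs with h
      · rw [← h]
        have e := Mi_sq adj u v
        rw [e]
        have : 0 ≤ (1 + ε) * m * Mi adj u v := by positivity
        linarith
      · have := mul_le_mul_of_nonneg_left (Q.row2 u u' h) hab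
        linarith
    refine (Finset.sum_le_sum fun u _ => Finset.sum_le_sum fun u' _ => h4 u u').trans
      (le_of_eq ?_)
    simp only [Finset.sum_add_distrib]
    congr 1
    · rw [sq, Finset.sum_mul_sum, Finset.mul_sum]
      refine Finset.sum_congr rfl fun u _ => ?_
      rw [Finset.mul_sum]
    · refine Finset.sum_congr rfl fun u _ => ?_
      rw [Finset.sum_ite_eq]
      simp
  have h4 : ∑ u, Mi adj u v * cc adj u u = ∑ v', ∑ u, Mi adj u v * Mi adj u v' := by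
    rw [Finset.sum_comm]
    refine Finset.sum_congr rfl fun u _ => ?_
    rw [cc_eq, Finset.mul_sum]
    refine Finset.sum_congr rfl fun v' _ => ?_
    rw [Mi_sq]
  have h5 : ∑ v', ∑ u, Mi adj u v * Mi adj u v' ≤
      Fintype.card V * ((1 + ε) * m) + ∑ u, Mi adj u v := by
    have h6 : ∀ v', ∑ u, Mi adj u v * Mi adj u v' ≤
        (1 + ε) * m + (if v = v' then ∑ u, Mi adj u v else 0) := by
      intro v'
      split_ifs with h
      · rw [← h]
        simp only [Mi_sq]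
        have : 0 ≤ (1 + ε) * m := by positivity
        linarith
      · have := Q.col2 v v' h
        linarith
    refine (Finset.sum_le_sum fun v' _ => h6 v').trans (le_of_eq ?_)
    rw [Finset.sum_add_distrib, Finset.sum_const, Finset.card_univ, nsmul_eq_mul,
      Finset.sum_ite_eq]
    simp
  have h6 := Q.deg v
  have h7 := card_sub_one Q hp1
  have hbig := Q.big
  have hmeq := Q.meq
  obtain ⟨n, hn'⟩ : ∃ n : ℝ, n = Fintype.card V := ⟨_, rfl⟩
  rw [← hn'] at hn h2 h5 h6 h7 hmeq ⊢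
  obtain ⟨d, hd⟩ : ∃ d, d = ∑ u, Mi adj u v := ⟨_, rfl⟩
  have hd0 : 0 ≤ d := by
    rw [hd]
    exact Finset.sum_nonneg fun u _ => Mi_nonneg adj u v
  rw [← hd] at h3 h5 h6 ⊢
  -- `d ^ 2 (1 + ε) m ≥ n m ^ 2 ((1 - ε) ^ 3 - (1 + ε) ε - (1 + ε) ε ^ 2)`
  have h8 : (1 - ε) * n * ((1 - ε) * m) ^ 2 ≤ (n - 1) * ((1 - ε) * m) ^ 2 :=
    mul_le_mul_of_nonneg_right h7 (sq_nonneg _)
  have h9 : (1 - ε) * n * ((1 - ε) * m) ^ 2 ≤
      (1 + ε) * m * d ^ 2 + (n * ((1 + ε) * m) + (1 + ε) * (n * p)) := by linarith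
  have h10 : n * ((1 + ε) * m) ≤ n * ((1 + ε) * m) * (ε * m) :=
    le_mul_of_one_le_right (by positivity) hbig
  have h11 : (1 + ε) * (n * p) ≤ (1 + ε) * n * (ε * m) * (ε * m) := by
    have ha : (1 + ε) * (n * p) ≤ (1 + ε) * n := by nlinarith
    have hb : (1 + ε) * n ≤ (1 + ε) * n * (ε * m) :=
      le_mul_of_one_le_right (by positivity) hbig
    have hc : (1 + ε) * n * (ε * m) ≤ (1 + ε) * n * (ε * m) * (ε * m) :=
      le_mul_of_one_le_right (by positivity) hbig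
    linarith
  have h12 : (1 - 6 * ε) * (1 + ε) ≤ (1 - ε) ^ 3 - (1 + ε) * ε - (1 + ε) * ε ^ 2 := by
    nlinarith [mul_pos hε hε, mul_pos (mul_pos hε hε) hε]
  have h13 : (n * m) * m * ((1 - 6 * ε) * (1 + ε)) ≤ (1 + ε) * m * d ^ 2 := by
    have := mul_le_mul_of_nonneg_left h12 (by positivity : 0 ≤ (n * m) * m)
    have e : (n * m) * m * ((1 - ε) ^ 3 - (1 + ε) * ε - (1 + ε) * ε ^ 2) =
        (1 - ε) * n * ((1 - ε) * m) ^ 2 - n * ((1 + ε) * m) * (ε * m) -
          (1 + ε) * n * (ε * m) * (ε * m) := by ring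
    rw [e] at this
    linarith
  have h14 : (1 + ε) * m * ((1 - 6 * ε) * (n * p) ^ 2) ≤ (1 + ε) * m * d ^ 2 := by
    have e : (1 + ε) * m * ((1 - 6 * ε) * (n * p) ^ 2) =
        (n * (n * p ^ 2)) * m * ((1 - 6 * ε) * (1 + ε)) := by ring
    rw [e, ← hmeq]
    exact h13
  have h15 : (1 - 6 * ε) * (n * p) ^ 2 ≤ d ^ 2 := le_of_mul_le_mul_left h14 (by positivity)
  have h16 : ((1 - 6 * ε) * (n * p)) ^ 2 ≤ d ^ 2 := by
    refine le_trans ?_ h15
    rw [mul_pow]
    exact mul_le_mul_of_nonneg_right (by nlinarith) (sq_nonneg _)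
  exact abs_le_of_sq_le_sq' h16 hd0 |>.2

section Hilbert

variable {H : Type u} [NormedAddCommGroup H] [InnerProductSpace ℝ H]

/-- second moment of the centred operator -/
theorem mix_sq (Q : QF adj p ε m) (hp1 : p ≤ 1) (y : V → H) :
    ∑ u, ‖∑ v, (Mi adj u v / p - 1) • y v‖ ^ 2 ≤
      15 * ε * (Fintype.card V : ℝ) ^ 2 * ∑ v, ‖y v‖ ^ 2 := by
  classical
  have hn := Q.n0
  have hp := Q.p0
  have hε := Q.ε0
  have hε1 := Q.ε1
  have hm := Q.m0
  have hmeq := Q.meq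
  have hbig := Q.big
  obtain ⟨n, hn'⟩ : ∃ n : ℝ, n = Fintype.card V := ⟨_, rfl⟩
  have hinvp : 1 / p ≤ ε * n := by
    rw [div_le_iff₀ hp]
    rw [hmeq] at hbig
    have : ε * (Fintype.card V * p ^ 2) ≤ ε * n * p := by
      rw [hn']
      have : p ^ 2 ≤ p := by nlinarith
      have := mul_le_mul_of_nonneg_left this (by positivity : 0 ≤ ε * (Fintype.card V : ℝ))
      linarith
    linarith
  have h1 : ∀ u, ‖∑ v, (Mi adj u v / p - 1) • y v‖ ^ 2 =
      ∑ v, ∑ v', ((Mi adj u v / p - 1) * (Mi adj u v' / p - 1)) * inner ℝ (y v) (y v') := by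
    intro u
    rw [← real_inner_self_eq_norm_sq, sum_inner]
    refine Finset.sum_congr rfl fun v _ => ?_
    rw [inner_sum]
    refine Finset.sum_congr rfl fun v' _ => ?_
    rw [real_inner_smul_left, real_inner_smul_right]
    ring
  have h2 : ∑ u, ‖∑ v, (Mi adj u v / p - 1) • y v‖ ^ 2 =
      ∑ v, ∑ v', (∑ u, (Mi adj u v / p - 1) * (Mi adj u v' / p - 1)) * inner ℝ (y v) (y v') := by
    rw [Finset.sum_congr rfl fun u _ => h1 u, Finset.sum_comm]
    refine Finset.sum_congr rfl fun v _ => ?_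
    rw [Finset.sum_comm]
    refine Finset.sum_congr rfl fun v' _ => ?_
    rw [Finset.sum_mul]
  have h3 : ∀ v v', ∑ u, (Mi adj u v / p - 1) * (Mi adj u v' / p - 1) =
      (∑ u, Mi adj u v * Mi adj u v') / p ^ 2 - (∑ u, Mi adj u v) / p -
        (∑ u, Mi adj u v') / p + n := by
    intro v v'
    rw [Finset.sum_div, Finset.sum_div, Finset.sum_div, ← Finset.sum_sub_distrib,
      ← Finset.sum_sub_distrib, hn']
    have e : (Fintype.card V : ℝ) = ∑ _u : V, (1 : ℝ) := by simp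
    rw [e, ← Finset.sum_add_distrib]
    refine Finset.sum_congr rfl fun u _ => ?_
    field_simp
    ring
  have hup : ∀ v, (∑ u, Mi adj u v) / p ≤ (1 + ε) * n := by
    intro v
    rw [div_le_iff₀ hp]
    have := Q.deg v
    rw [← hn'] at this
    linarith
  have hlo : ∀ v, (1 - 6 * ε) * n ≤ (∑ u, Mi adj u v) / p := by
    intro v
    rw [le_div_iff₀ hp]
    have := col_lower Q hp1 v
    rw [← hn'] at this
    linarith
  have h4 : ∀ v v', v ≠ v' → |∑ u, (Mi adj u v / p - 1) * (Mi adj u v' / p - 1)| ≤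
      13 * ε * n := by
    intro v v' h
    rw [h3, abs_le]
    have ha : (1 - ε) * n ≤ (∑ u, Mi adj u v * Mi adj u v') / p ^ 2 := by
      rw [le_div_iff₀ (by positivity)]
      have := Q.col1 v v' h
      rw [hmeq, ← hn'] at this
      linarith
    have hb : (∑ u, Mi adj u v * Mi adj u v') / p ^ 2 ≤ (1 + ε) * n := by
      rw [div_le_iff₀ (by positivity)]
      have := Q.col2 v v' h
      rw [hmeq, ← hn'] at this
      linarith
    have hc := hup v
    have hd := hup v'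
    have he := hlo v
    have hf := hlo v'
    have hg : 0 < ε * n := by
      rw [hn']
      positivity
    constructor
    · linarith
    · linarith
  have h5 : ∀ v, ∑ u, (Mi adj u v / p - 1) * (Mi adj u v / p - 1) ≤ 2 * ε * n ^ 2 := by
    intro v
    rw [h3]
    have e : (∑ u, Mi adj u v * Mi adj u v) / p ^ 2 = (∑ u, Mi adj u v) / p * (1 / p) := by
      simp only [Mi_sq]
      field_simp
    rw [e]
    have ha := hup v
    have hb := hlo v
    have hn0 : 0 < n := by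
      rw [hn']
      exact hn
    have hc : (∑ u, Mi adj u v) / p * (1 / p) ≤ (1 + ε) * n * (ε * n) :=
      mul_le_mul ha hinvp (by positivity) (by positivity)
    have hd : (1 + ε) * n * (ε * n) ≤ 2 * ε * n ^ 2 := by
      have : (1 + ε) ≤ 2 := by linarith
      have := mul_le_mul_of_nonneg_right this (by positivity : 0 ≤ ε * n ^ 2)
      linarith
    have he : 12 * ε * n ≤ n := by
      have : 12 * ε ≤ 1 := by linarith
      have := mul_le_mul_of_nonneg_right this hn0.le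
      linarith
    linarith
  rw [h2]
  have h6 : ∀ v v', (∑ u, (Mi adj u v / p - 1) * (Mi adj u v' / p - 1)) *
      inner ℝ (y v) (y v') ≤ 13 * ε * n * ((‖y v‖ ^ 2 + ‖y v'‖ ^ 2) / 2) +
        (if v = v' then 2 * ε * n ^ 2 * ‖y v‖ ^ 2 else 0) := by
    intro v v'
    have hg : 0 < ε * n := by
      rw [hn']
      positivity
    split_ifs with h
    · rw [← h, real_inner_self_eq_norm_sq]
      have ha := mul_le_mul_of_nonneg_right (h5 v) (sq_nonneg ‖y v‖)
      have : 0 ≤ 13 * ε * n * ((‖y v‖ ^ 2 + ‖y v‖ ^ 2) / 2) := by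
        have : 0 ≤ (ε * n) * ((‖y v‖ ^ 2 + ‖y v‖ ^ 2) / 2) := by positivity
        linarith
      linarith
    · have ha := h4 v v' h
      have hb : |inner ℝ (y v) (y v')| ≤ (‖y v‖ ^ 2 + ‖y v'‖ ^ 2) / 2 := by
        refine (abs_real_inner_le_norm _ _).trans ?_
        nlinarith [sq_nonneg (‖y v‖ - ‖y v'‖)]
      have hc := mul_le_mul ha hb (abs_nonneg _) (by linarith : 0 ≤ 13 * ε * n)
      rw [← abs_mul] at hc
      have := le_abs_self ((∑ u, (Mi adj u v / p - 1) * (Mi adj u v' / p - 1)) *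
        inner ℝ (y v) (y v'))
      linarith
  refine (Finset.sum_le_sum fun v _ => Finset.sum_le_sum fun v' _ => h6 v v').trans ?_
  have e1 : ∑ v, ∑ v', (13 * ε * n * ((‖y v‖ ^ 2 + ‖y v'‖ ^ 2) / 2) +
      (if v = v' then 2 * ε * n ^ 2 * ‖y v‖ ^ 2 else 0)) =
      13 * ε * n * (n * ∑ v, ‖y v‖ ^ 2) + 2 * ε * n ^ 2 * ∑ v, ‖y v‖ ^ 2 := by
    simp only [Finset.sum_add_distrib]
    congr 1
    · have e2 : ∀ v : V, ∑ v' : V, 13 * ε * n * ((‖y v‖ ^ 2 + ‖y v'‖ ^ 2) / 2) =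
          13 * ε * n * (n / 2 * ‖y v‖ ^ 2 + (∑ v', ‖y v'‖ ^ 2) / 2) := by
        intro v
        rw [← Finset.mul_sum, ← Finset.sum_div, Finset.sum_add_distrib, Finset.sum_const,
          Finset.card_univ, nsmul_eq_mul, ← hn']
        ring
      rw [Finset.sum_congr rfl fun v _ => e2 v, ← Finset.mul_sum, Finset.sum_add_distrib,
        ← Finset.mul_sum, Finset.sum_const, Finset.card_univ, nsmul_eq_mul, ← hn']
      ring
    · rw [Finset.mul_sum]
      refine Finset.sum_congr rfl fun v _ => ?_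
      rw [Finset.sum_ite_eq]
      simp
  rw [e1, ← hn']
  have : 0 ≤ ∑ v, ‖y v‖ ^ 2 := Finset.sum_nonneg fun _ _ => sq_nonneg _
  refine le_of_eq ?_
  ring

/-- the energy of the edges in an inner product space -/
theorem mix_energy (Q : QF adj p ε m) (hp1 : p ≤ 1) {θ : ℝ} (hθ0 : 0 < θ)
    (hθ : 15 * ε ≤ θ ^ 2) (x y : V → H) :
    (∑ u, ∑ v, ‖x u - y v‖ ^ 2) - (6 * ε + θ) * Fintype.card V *
        (∑ u, ‖x u‖ ^ 2 + ∑ v, ‖y v‖ ^ 2) ≤
      (∑ u, ∑ v, Mi adj u v * ‖x u - y v‖ ^ 2) / p := by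
  classical
  have hn := Q.n0
  have hp := Q.p0
  have hε := Q.ε0
  obtain ⟨n, hn'⟩ : ∃ n : ℝ, n = Fintype.card V := ⟨_, rfl⟩
  have hn0 : 0 < n := by
    rw [hn']
    exact hn
  have e1 : (∑ u, ∑ v, Mi adj u v * ‖x u - y v‖ ^ 2) / p =
      (∑ u, ∑ v, ‖x u - y v‖ ^ 2) + ∑ u, ∑ v, (Mi adj u v / p - 1) * ‖x u - y v‖ ^ 2 := by
    rw [Finset.sum_div, ← Finset.sum_add_distrib]
    refine Finset.sum_congr rfl fun u _ => ?_
    rw [Finset.sum_div, ← Finset.sum_add_distrib]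
    refine Finset.sum_congr rfl fun v _ => ?_
    field_simp
    ring
  have e2 : ∑ u, ∑ v, (Mi adj u v / p - 1) * ‖x u - y v‖ ^ 2 =
      ∑ u, ((∑ v, Mi adj u v) / p - n) * ‖x u‖ ^ 2 +
        ∑ v, ((∑ u, Mi adj u v) / p - n) * ‖y v‖ ^ 2 -
        2 * ∑ u, inner ℝ (x u) (∑ v, (Mi adj u v / p - 1) • y v) := by
    have a1 : ∀ u v, (Mi adj u v / p - 1) * ‖x u - y v‖ ^ 2 =
        (Mi adj u v / p - 1) * ‖x u‖ ^ 2 + (Mi adj u v / p - 1) * ‖y v‖ ^ 2 -
          2 * ((Mi adj u v / p - 1) * inner ℝ (x u) (y v)) := by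
      intro u v
      rw [norm_sub_sq_real]
      ring
    simp only [a1, Finset.sum_sub_distrib, Finset.sum_add_distrib]
    congr 1
    · congr 1
      · refine Finset.sum_congr rfl fun u _ => ?_
        rw [← Finset.sum_mul, Finset.sum_sub_distrib, Finset.sum_div, Finset.sum_const,
          Finset.card_univ, nsmul_eq_mul, mul_one, hn']
      · rw [Finset.sum_comm]
        refine Finset.sum_congr rfl fun v _ => ?_
        rw [← Finset.sum_mul, Finset.sum_sub_distrib, Finset.sum_div, Finset.sum_const,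
          Finset.card_univ, nsmul_eq_mul, mul_one, hn']
    · rw [Finset.mul_sum]
      refine Finset.sum_congr rfl fun u _ => ?_
      rw [inner_sum, Finset.mul_sum]
      refine Finset.sum_congr rfl fun v _ => ?_
      rw [real_inner_smul_right]
  have h1 : -(3 * ε * n) * ∑ u, ‖x u‖ ^ 2 ≤ ∑ u, ((∑ v, Mi adj u v) / p - n) * ‖x u‖ ^ 2 := by
    rw [Finset.mul_sum]
    refine Finset.sum_le_sum fun u _ => mul_le_mul_of_nonneg_right ?_ (sq_nonneg _)
    have h := row_lower Q hp1 u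
    rw [← hn'] at h
    have h2 : (1 - 3 * ε) * n ≤ (∑ v, Mi adj u v) / p := by
      rw [le_div_iff₀ hp]
      linarith
    linarith
  have h2 : -(6 * ε * n) * ∑ v, ‖y v‖ ^ 2 ≤ ∑ v, ((∑ u, Mi adj u v) / p - n) * ‖y v‖ ^ 2 := by
    rw [Finset.mul_sum]
    refine Finset.sum_le_sum fun v _ => mul_le_mul_of_nonneg_right ?_ (sq_nonneg _)
    have h := col_lower Q hp1 v
    rw [← hn'] at h
    have h2 : (1 - 6 * ε) * n ≤ (∑ u, Mi adj u v) / p := by
      rw [le_div_iff₀ hp]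
      linarith
    linarith
  have h3 : ∑ u, inner ℝ (x u) (∑ v, (Mi adj u v / p - 1) • y v) ≤
      θ * n / 2 * (∑ u, ‖x u‖ ^ 2 + ∑ v, ‖y v‖ ^ 2) := by
    have a1 : ∀ u, inner ℝ (x u) (∑ v, (Mi adj u v / p - 1) • y v) ≤
        θ * n / 2 * ‖x u‖ ^ 2 + 1 / (2 * (θ * n)) * ‖∑ v, (Mi adj u v / p - 1) • y v‖ ^ 2 := by
      intro u
      refine (real_inner_le_norm _ _).trans ?_
      obtain ⟨a, ha⟩ : ∃ a, a = ‖x u‖ := ⟨_, rfl⟩
      obtain ⟨b, hb⟩ : ∃ b, b = ‖∑ v, (Mi adj u v / p - 1) • y v‖ := ⟨_, rfl⟩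
      rw [← ha, ← hb]
      have hτ : 0 < θ * n := mul_pos hθ0 hn0
      obtain ⟨τ, hτ'⟩ : ∃ τ, τ = θ * n := ⟨_, rfl⟩
      rw [← hτ'] at hτ ⊢
      have e3 : τ / 2 * a ^ 2 + 1 / (2 * τ) * b ^ 2 - a * b = 1 / (2 * τ) * (τ * a - b) ^ 2 := by
        field_simp
        ring
      have : 0 ≤ 1 / (2 * τ) * (τ * a - b) ^ 2 := by positivity
      linarith
    refine (Finset.sum_le_sum fun u _ => a1 u).trans ?_
    rw [Finset.sum_add_distrib, ← Finset.mul_sum, ← Finset.mul_sum]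
    have a2 := mix_sq Q hp1 y
    rw [← hn'] at a2
    have hSy : 0 ≤ ∑ v, ‖y v‖ ^ 2 := Finset.sum_nonneg fun _ _ => sq_nonneg _
    have a3 : 15 * ε * n ^ 2 * ∑ v, ‖y v‖ ^ 2 ≤ θ ^ 2 * n ^ 2 * ∑ v, ‖y v‖ ^ 2 :=
      mul_le_mul_of_nonneg_right (mul_le_mul_of_nonneg_right hθ (sq_nonneg _)) hSy
    have a4 : 1 / (2 * (θ * n)) * ∑ u, ‖∑ v, (Mi adj u v / p - 1) • y v‖ ^ 2 ≤
        1 / (2 * (θ * n)) * (θ ^ 2 * n ^ 2 * ∑ v, ‖y v‖ ^ 2) :=
      mul_le_mul_of_nonneg_left (a2.trans a3) (by positivity)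
    have a5 : 1 / (2 * (θ * n)) * (θ ^ 2 * n ^ 2 * ∑ v, ‖y v‖ ^ 2) =
        θ * n / 2 * ∑ v, ‖y v‖ ^ 2 := by
      field_simp
    rw [a5] at a4
    linarith
  have hSx : 0 ≤ ∑ v, ‖x v‖ ^ 2 := Finset.sum_nonneg fun _ _ => sq_nonneg _
  have h4 : 0 ≤ ε * n * ∑ v, ‖x v‖ ^ 2 := by positivity
  rw [e1, e2, ← hn']
  nlinarith

end Hilbert

end Vale.Agent.P172.H783
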