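import Vale.Agent.P172.R2.H783.Asm
import Vale.Agent.P172.R2.H783.Mix
import Vale.Agent.P172.R2.H783.Chi
import Vale.Agent.P172.Rand
import Vale.Agent.P172.JungK
import Vale.Agent.P172.Grp2

/-!
# P172: as Final.lean, with arbitrarily large Euler characteristic (helper783)
-/

namespace Vale.Agent.P172.H783

open Vale.Agent.P172 Vale.Agent.P201.S

universe u v w

open Finset

theorem relWord_inj {N k k' : ℕ} {u u' : Fin k → Al N} {c c' : Fin k' → Al N}
    {v v' : Fin k → Al N} (h : relWord u c v = relWord u' c' v') : u = u' ∧ v = v' := by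
  unfold relWord at h
  obtain ⟨h1, h2⟩ := List.append_inj h (by simp)
  obtain ⟨h3, _⟩ := List.append_inj h1 (by simp)
  refine ⟨List.ofFn_injective h3, ?_⟩
  have h4 := List.reverse_injective h2
  have hinj : Function.Injective (Al.inv : Al N → Al N) :=
    Function.LeftInverse.injective (g := Al.inv) Al.inv_inv
  exact List.ofFn_injective (List.map_injective_iff.mpr hinj h4)

/-- the number of relators of a quasi-random set of triples -/
theorem many_relators {N k k' : ℕ} (Rel : Finset ((Fin k → Al N) × (Fin k' → Al N) ×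
    (Fin k → Al N))) {ε : ℝ}
    (hQR : QR (V := {w : Fin k → Al N // Good (List.ofFn w)})
      (fun u v => ∃ c, (u.1, c, v.1) ∈ Rel) (1 / (N : ℝ) ^ (k - 1)) ε) (hε : ε ≤ 1 / 20)
    (hk : 2 ≤ k) (hN : 0 < N) :
    3 * N ≤ (Rel.image fun t => relWord t.1 t.2.1 t.2.2).card := by
  classical
  have Q := hQR.qf hε
  have hp1 := hQR.le_one
  have hbig := Q.big
  have hmeq := Q.meq
  have hε0 := Q.ε0
  have hp0 := Q.p0
  have hn0 := Q.n0
  obtain ⟨n, hn⟩ : ∃ n : ℝ, n = Fintype.card {w : Fin k → Al N // Good (List.ofFn w)} :=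
    ⟨_, rfl⟩
  obtain ⟨p, hp⟩ : ∃ p : ℝ, p = 1 / (N : ℝ) ^ (k - 1) := ⟨_, rfl⟩
  have hNr : (1 : ℝ) ≤ N := by exact_mod_cast hN
  -- pairs
  obtain ⟨T, hT⟩ : ∃ T : Finset ({w : Fin k → Al N // Good (List.ofFn w)} ×
      {w : Fin k → Al N // Good (List.ofFn w)}),
      T = Finset.univ.filter fun q => ∃ c, (q.1.1, c, q.2.1) ∈ Rel := ⟨_, rfl⟩
  have hTW : T.card ≤ (Rel.image fun t => relWord t.1 t.2.1 t.2.2).card := by
    have hc : ∀ q ∈ T, ∃ c, (q.1.1, c, q.2.1) ∈ Rel := fun q hq => by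
      rw [hT, Finset.mem_filter] at hq
      exact hq.2
    have hne : Nonempty (Fin k' → Al N) := ⟨fun _ => ((⟨0, hN⟩, ⟨0, hN⟩), true)⟩
    choose! cf hcf using hc
    refine Finset.card_le_card_of_injOn (fun q => relWord q.1.1 (cf q) q.2.1)
      (fun q hq => ?_) (fun q _ q' _ h => ?_)
    · exact Finset.mem_image_of_mem (fun t => relWord t.1 t.2.1 t.2.2) (hcf q hq)
    · obtain ⟨h1, h2⟩ := relWord_inj h
      exact Prod.ext (Subtype.ext h1) (Subtype.ext h2)
  have hTM : (T.card : ℝ) = ∑ u, ∑ v, Mi (fun u v : {w : Fin k → Al N // Good (List.ofFn w)} =>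
      ∃ c, (u.1, c, v.1) ∈ Rel) u v := by
    rw [hT, Finset.card_filter, Nat.cast_sum, ← Finset.univ_product_univ, Finset.sum_product]
    refine Finset.sum_congr rfl fun u _ => Finset.sum_congr rfl fun v _ => ?_
    unfold Mi
    split_ifs <;> simp
  have hlow : n * ((1 - 3 * ε) * (n * p)) ≤ (T.card : ℝ) := by
    rw [hTM]
    have h1 := Finset.sum_le_sum fun (u : {w : Fin k → Al N // Good (List.ofFn w)})
      (_ : u ∈ Finset.univ) => row_lower Q hp1 u
    rw [Finset.sum_const, Finset.card_univ, nsmul_eq_mul, ← hn, ← hp] at h1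
    exact h1
  rw [← hn, ← hp] at hmeq
  rw [← hn, ← hp] at hbig
  rw [← hn] at hn0
  rw [← hp] at hp1 hp0
  -- `20 ≤ n p ^ 2`
  have h20 : 20 ≤ n * p ^ 2 := by
    have h1 : ε * (n * p ^ 2) ≤ 1 / 20 * (n * p ^ 2) :=
      mul_le_mul_of_nonneg_right hε (by positivity)
    linarith
  have hnp : 20 ≤ n * p := by
    have h1 : n * p ^ 2 ≤ n * p := by
      have : p ^ 2 ≤ p := by nlinarith
      exact mul_le_mul_of_nonneg_left this hn0.le
    linarith
  have hpN : p * N ≤ 1 := by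
    rw [hp, one_div, inv_mul_le_iff₀ (by positivity), mul_one]
    calc (N : ℝ) = N ^ 1 := (pow_one _).symm
      _ ≤ N ^ (k - 1) := pow_le_pow_right₀ hNr (by omega)
  have hnN : 20 * (N : ℝ) ≤ n := by
    have h1 : 20 * (N : ℝ) ≤ n * p * N := mul_le_mul_of_nonneg_right hnp (by positivity)
    have h2 : n * p * N = n * (p * N) := by ring
    have h3 : n * (p * N) ≤ n * 1 := mul_le_mul_of_nonneg_left hpN hn0.le
    linarith
  have h1 : n ≤ n * ((1 - 3 * ε) * (n * p)) := by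
    refine le_mul_of_one_le_right hn0.le ?_
    have h2 : (1 - 3 * ε) * 20 ≤ (1 - 3 * ε) * (n * p) :=
      mul_le_mul_of_nonneg_left hnp (by linarith)
    linarith
  have h2 : (3 * N : ℝ) ≤ (T.card : ℝ) := by linarith
  have h3 : 3 * N ≤ T.card := by exact_mod_cast h2
  exact h3.trans hTW

theorem asphN_gr {N : ℕ} {W : Finset (List (Al (N + 1)))} (hG : ∀ w ∈ W, Good w)
    (hW : ∀ w ∈ W, 0 < w.length)
    (has : ∀ k z, Expr (S := sysW W hG) 1 k 1 z → z = 0) :
    AsphN (Gr W) (W.card + 1) (2 * (N + 1)) := by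
  classical
  refine ⟨Fin (N + 1) ⊕ Fin (N + 1), Option {w // w ∈ W}, inferInstance, inferInstance,
    PresentedGroup.mk (rl W), rel0 W, ?_, ?_, PresentedGroup.mk_surjective (rl W), ?_,
    asph_gr hG hW has⟩
  · simp
  · simp
    ring
  · rw [range_rel0]
    exact QuotientGroup.ker_mk' _

/-- D with the aspherical presentation and its numbers of generators and relators -/
theorem stmtGrp3 : ∀ e : ℝ, 0 < e → ∃ K Y₀ : ℕ, ∀ Y ≥ Y₀, ∀ (N : ℕ)
  (W : Finset (List (Al (N + 1)))), (∀ w ∈ W, Y ≤ 2 * w.length ∧ w.length ≤ Y) →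
    (∀ w ∈ W, Good w) → Sparse W (K * Y) e →
    Vale.Agent.P186.IsHyperbolicGroup (Gr W) ∧
    (∀ h : Gr W, ∀ m : ℕ, 0 < m → h ^ m = 1 → h = 1) ∧ HasFreeRes2 (Gr W) ∧
    (∀ r : Fin (N + 1), (PresentedGroup.of (Sum.inr r) : Gr W) ≠ 1) ∧ HasAsphPres (Gr W) ∧
    AsphN (Gr W) (W.card + 1) (2 * (N + 1)) := by
  intro e he
  obtain ⟨K, Y0, h⟩ := stmtGlob (1 / 2) e 0 (by norm_num) he
  refine ⟨K, max Y0 1, fun Y hY N W hlen hG hS => ?_⟩
  have hY0 : Y0 ≤ Y := (le_max_left _ _).trans hY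
  have hY1 : 1 ≤ Y := (le_max_right _ _).trans hY
  have hpos : ∀ w ∈ W, 0 < w.length := fun w hw => by
    have := (hlen w hw).1
    omega
  obtain ⟨h1, h2, h3⟩ := h (sysW W hG) (fun q => le_rfl) Y hY0 1 ((Y + 1) / 2) (by
    have h4 : Y ≤ 2 * ((Y + 1) / 2) := by omega
    have h5 : (Y : ℝ) ≤ 2 * (((Y + 1) / 2 : ℕ) : ℝ) := by exact_mod_cast h4
    linarith) (girth_sysW hG _ fun w hw => by
      have := (hlen w hw).1
      omega) (LS.locIso_sysW hG he.le (fun w hw => (hlen w hw).2) hS)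
  exact ⟨RG.hyperbolic_gr hG e he Y h3, RG.torsion_gr hG h1, hasFreeRes2_gr hG hpos h1,
    RG.of_inr_ne hG Y h2, hasAsphPres_gr hG hpos h1, asphN_gr hG hpos h1⟩

theorem final4 {c ε : ℝ} (hc : 0 < c) (hc2 : c ≤ 1 / 2) (hε : 0 < ε) (M : ℕ) :
    ∃ (G : Type) (_ : Group G), Vale.Agent.P186.IsHyperbolicGroup G ∧ Infinite G ∧
    (∀ h : G, ∀ m : ℕ, 0 < m → h ^ m = 1 → h = 1) ∧ HasAsphPres G ∧ HasFreeRes2 G ∧
    (∃ a b, AsphN G a b ∧ b + M ≤ a) ∧
    ∀ (X : Type u) [Nonempty X] [MetricSpace X] [CompleteSpace X] [MulAction G X]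
      [IsIsometricSMul G X], Cat X → UGx X c ε → ∃ q : X, ∀ h : G, h • q = q := by
  classical
  have hc1 : c ≤ 1 := by linarith
  obtain ⟨m, hm⟩ := pow_unbounded_of_one_lt (4 : ℝ) (show (1 : ℝ) < 1 + c / 2 by linarith)
  obtain ⟨ε₂, hε₂⟩ : ∃ ε₂, ε₂ = min ε (c / 10) := ⟨_, rfl⟩
  have hε₂0 : 0 < ε₂ := by
    rw [hε₂]
    exact lt_min hε (by linarith)
  have hε₂1 : ε₂ ≤ ε := by
    rw [hε₂]
    exact min_le_left _ _
  have hε₂2 : ε₂ ≤ c / 10 := by
    rw [hε₂]
    exact min_le_right _ _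
  set P : ℕ := 2 * (m + 1) with hP
  have hPr : (0 : ℝ) < P := by
    rw [hP]; positivity
  set e : ℝ := 1 / (24 * P) with he
  have he0 : 0 < e := by positivity
  obtain ⟨K, Y₀, hG⟩ := stmtGrp3 e he0
  set T : ℕ := 2 * (Y₀ + 2) + 1 with hT
  set k : ℕ → ℕ := fun j => T * (P + j) with hk
  set Y : ℕ := T * (6 * P - 2) with hY
  have hlen : ∀ j, 2 * k j + k (j + 1) = T * (3 * (P + j) + 1) := by
    intro j
    simp only [hk]
    ring
  have hk0 : 0 < k 0 := by
    simp only [hk]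
    positivity
  have hkk : ∀ j, k (j + 1) = k j + T := by
    intro j
    simp only [hk]
    ring
  have hodd : Odd (k 1) := by
    simp only [hk]
    refine Odd.mul ⟨Y₀ + 2, rfl⟩ ⟨m + 1, by rw [hP]⟩
  choose N₃ hN₃ using fun j => stmtGood.{u} (k j) (c / 10) (by linarith)
  obtain ⟨N₁, hN₁⟩ : ∃ N₁ : ℕ, N₁ = (∑ j ∈ Finset.range P, N₃ j) + k 0 := ⟨_, rfl⟩
  obtain ⟨N₂, hN₂⟩ := stmtRand P k e ε₂ (K * Y) he0 hε₂0 hk0
    (fun j _ => by rw [hkk]; omega)
    (fun j _ => by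
      simp only [hk]
      have : T * (2 * (P + (j + 1))) ≤ T * (3 * (P + j)) := Nat.mul_le_mul_left _ (by omega)
      nlinarith)
    (fun j hj => by
      have h1 : ((2 * k j + k (j + 1) : ℕ) : ℝ) = T * (3 * (P + j) + 1) := by
        rw [hlen]; push_cast; ring
      push_cast at h1
      rw [h1]
      have h2 : (k (j + 1) : ℝ) = k j + T := by rw [hkk]; push_cast; ring
      rw [h2]
      have h3 : (3 * ((P : ℝ) + j) + 1) ≤ 6 * P := by
        have : 3 * (P + j) + 1 ≤ 6 * P := by omega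
        exact_mod_cast this
      have h4 : (5 : ℝ) ≤ T := by
        have : 5 ≤ T := by omega
        exact_mod_cast this
      have h5 : e * (T * (3 * ((P : ℝ) + j) + 1)) ≤ e * (T * (6 * P)) := by
        have : (0 : ℝ) ≤ T := by linarith
        gcongr
      have h6 : e * (T * (6 * P)) = T / 4 := by
        rw [he]; field_simp; ring
      linarith)
  obtain ⟨Rel, h1, h2, h3, h4, h5⟩ := hN₂ (N₁ + N₂ + M + 1) (by omega)
  set W : Finset (List (Al (N₁ + N₂ + M + 1))) := (Finset.range P).biUnion fun j =>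
      (Rel j).image fun t => relWord t.1 t.2.1 t.2.2 with hW
  have hmem : ∀ w ∈ W, ∃ j < P, ∃ t ∈ Rel j, relWord t.1 t.2.1 t.2.2 = w := by
    intro w hw
    rw [hW, Finset.mem_biUnion] at hw
    obtain ⟨j, hj, hw⟩ := hw
    rw [Finset.mem_image] at hw
    exact ⟨j, Finset.mem_range.1 hj, hw⟩
  have hmem' : ∀ j < P, ∀ t ∈ Rel j, relWord t.1 t.2.1 t.2.2 ∈ W := by
    intro j hj t ht
    rw [hW, Finset.mem_biUnion]
    exact ⟨j, Finset.mem_range.2 hj, Finset.mem_image_of_mem _ ht⟩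
  obtain ⟨g1, g2, g3, g4, g5, g6⟩ := hG Y (by
      rw [hY]
      calc Y₀ ≤ T * 1 := by omega
        _ ≤ T * (6 * P - 2) := Nat.mul_le_mul_left _ (by omega)) (N₁ + N₂ + M) W
    (by
      intro w hw
      obtain ⟨j, hj, t, ht, rfl⟩ := hmem w hw
      rw [Rnd.length_relWord, hlen, hY]
      constructor
      · calc T * (6 * P - 2) ≤ T * (2 * (3 * (P + j) + 1)) := Nat.mul_le_mul_left _ (by omega)
          _ = 2 * (T * (3 * (P + j) + 1)) := by ring
      · exact Nat.mul_le_mul_left _ (by omega))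
    (by
      intro w hw
      obtain ⟨j, hj, t, ht, rfl⟩ := hmem w hw
      exact h1 j hj t ht) (by convert h5)
  refine ⟨Gr W, inferInstance, g1, ?_, g2, g5, g3, ⟨_, _, g6, ?_⟩, ?_⟩
  · by_contra hinf
    rw [not_infinite_iff_finite] at hinf
    exact g4 0 (g2 _ (Nat.card (Gr W)) Nat.card_pos (pow_card_eq_one'))
  · -- many relators
    have hW0 : ((Rel 0).image fun t => relWord t.1 t.2.1 t.2.2) ⊆ W := by
      intro w hw
      rw [hW, Finset.mem_biUnion]
      exact ⟨0, Finset.mem_range.2 (by omega), hw⟩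
    have h6 := many_relators (Rel 0) (h3 0 (by omega)) (ε := ε₂) (by linarith)
      (show 2 ≤ k 0 by
        simp only [hk]
        have : 2 * 1 ≤ T * (P + 0) := Nat.mul_le_mul (by omega) (by omega)
        omega) (by omega)
    have h7 := Finset.card_le_card hW0
    have h8 : 3 * (N₁ + N₂ + M + 1) ≤ W.card := h6.trans h7
    omega
  · intro X _ _ _ _ _ hX hUG
    refine asm1x hc hc1 hε₂1 hε₂2 (hm.trans_le (pow_le_pow_right₀ (by linarith) (by omega)))
      hk0 (fun j => by rw [hkk]; omega) (by simp only [hk]; ring_nf; omega) hodd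
      (by omega) Rel hmem' (fun j hj => ?_) (fun j hj c => ?_) hX
      hUG (fun j hj x q => ?_)
    · convert h3 j hj
    · convert h4 j hj c
    · refine hN₃ j (N₁ + N₂ + M + 1) ?_ (Gr W) X (gG W) x q
      have := Finset.single_le_sum (f := N₃) (fun i _ => Nat.zero_le _) (Finset.mem_range.mpr hj)
      omega

end Vale.Agent.P172.H783
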