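import Vale.Agent.P172.B7

/-!
# P172, additive form of the nonlinear gap on quasi-random graphs (helper783)

`E(f₁, f₂) ≥ (1 + c) (var f₁ + var f₂) / 2` for maps into a complete CAT(0) space with the Jung
property of dimension `n`, with `c` depending only on `n`.
-/

namespace Vale.Agent.P172.H783

open Vale.Agent.P172

universe u

open Finset

section Main

variable {X : Type u} [MetricSpace X] (hX : Cat X) {V : Type} [Fintype V] [Nonempty V]

variable {adj : V → V → Prop} {p κ η : ℝ} {K : (V → V → (Fin 3 → V) → ℝ) → ℝ}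
  {f g : V → X} {b : X} {σ R : ℝ}

/-- the context from near-equality in the additive form -/
theorem ctx_add (hK : KS adj p κ η K) (hκ1 : 1 ≤ κ) (hκ2 : κ ≤ 2)
    {c M : ℝ} (hσ : 0 < σ) (hσ1 : σ ≤ 1) (hησ : η ≤ σ) (hc0 : 0 ≤ c)
    (hc1 : κ * (2 * κ * (1 + c) + M * (2 * κ * (1 + c) - 2)) ≤ 2 + 2 * σ ^ 2)
    (hc2 : 2 * κ * (1 + c) + M * (2 * κ * (1 + c) - 2) - 2 / κ ≤ 4 * σ ^ 2)
    (f g : V → X) {b b₁ : X} {R R₁ : ℝ}
    (hb : IsBar (fun _ : V => (1 : ℝ) / Fintype.card V) f b)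
    (hb₁ : IsBar (fun _ : V => (1 : ℝ) / Fintype.card V) g b₁)
    (hR : R = E1 (fun v => dist b (f v) ^ 2)) (hR₁ : R₁ = E1 (fun v => dist b₁ (g v) ^ 2))
    (hR0 : 0 < R) (hRM : R₁ ≤ M * R)
    (hE : Ee adj p (fun u v => dist (g u) (f v) ^ 2) ≤ (1 + c) * ((R₁ + R) / 2)) :
    Ctx hX hK f g b σ R := by
  classical
  have hw1 : ∑ _v : V, (1 : ℝ) / Fintype.card V = 1 := by
    have hV : (Fintype.card V : ℝ) ≠ 0 := (card_pos' (V := V)).ne'
    rw [Finset.sum_const, Finset.card_univ, nsmul_eq_mul]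
    field_simp
  have hw0 : ∀ _v : V, (0 : ℝ) ≤ 1 / Fintype.card V := fun _ => by positivity
  have hκ0 : 0 < κ := by linarith
  have hA1 : 2 * R₁ ≤ E2 fun a a' => dist (g a) (g a') ^ 2 := by
    have h1 := E2_ge hb₁
    linarith
  have hA2 := E2_ge hb
  rw [← hR] at hA2
  have hquad := quad_avg hX hK hκ0 hE
  have hip := E2_ip b f
  rw [← hR] at hip
  obtain ⟨A₁, hA₁⟩ : ∃ A₁, A₁ = E2 fun a a' => dist (g a) (g a') ^ 2 := ⟨_, rfl⟩
  obtain ⟨A₂, hA₂⟩ : ∃ A₂, A₂ = E2 fun a a' => dist (f a) (f a') ^ 2 := ⟨_, rfl⟩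
  rw [← hA₁] at hA1 hquad
  rw [← hA₂] at hA2 hquad hip
  obtain ⟨ρ, hρ⟩ : ∃ ρ : ℝ, ρ = 2 * κ * (1 + c) := ⟨_, rfl⟩
  have hρ2 : 2 ≤ ρ := by
    rw [hρ]
    have : (1 : ℝ) * 1 ≤ κ * (1 + c) := mul_le_mul hκ1 (by linarith) zero_le_one hκ0.le
    linarith
  have e0 : 4 * κ * ((1 + c) * ((R₁ + R) / 2)) = ρ * (R₁ + R) := by
    rw [hρ]
    ring
  rw [e0] at hquad
  rw [← hρ] at hc1 hc2
  have hmain : ρ * (R₁ + R) - 2 * R₁ ≤ (ρ + M * (ρ - 2)) * R := by
    have h1 : (ρ - 2) * R₁ ≤ (ρ - 2) * (M * R) := mul_le_mul_of_nonneg_left hRM (by linarith)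
    nlinarith
  have hA2u : A₂ ≤ (2 + 2 * σ ^ 2) * R := by
    have h1 := hquad 0 1 (by decide)
    have h2 := hK.nonneg
      (fun u u' v => dist (mp hX (g u) (g u')) (mp hX (f (v 0)) (f (v 1))) ^ 2)
      (fun _ _ _ => sq_nonneg _)
    have h3 : A₂ / κ ≤ (ρ + M * (ρ - 2)) * R := by linarith
    have h4 : A₂ ≤ κ * ((ρ + M * (ρ - 2)) * R) := by
      rw [div_le_iff₀ hκ0] at h3
      linarith
    calc A₂ ≤ κ * ((ρ + M * (ρ - 2)) * R) := h4
      _ = κ * (ρ + M * (ρ - 2)) * R := by ring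
      _ ≤ (2 + 2 * σ ^ 2) * R := mul_le_mul_of_nonneg_right hc1 hR0.le
  have hs : ∀ i j : Fin 3, i ≠ j →
      K (fun u u' v => dist (mp hX (g u) (g u')) (mp hX (f (v i)) (f (v j))) ^ 2) ≤
        σ ^ 2 * R := by
    intro i j hij
    have h1 := hquad i j hij
    have h2 : 2 * R / κ ≤ A₂ / κ := div_le_div_of_nonneg_right hA2 hκ0.le
    have h5 : (ρ + M * (ρ - 2)) * R - 2 * R / κ ≤ 4 * (σ ^ 2 * R) := by
      have := mul_le_mul_of_nonneg_right hc2 hR0.le
      have e : 2 * R / κ = 2 / κ * R := by ring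
      rw [e]
      linarith
    linarith
  have hI : -(σ ^ 2 * R) ≤ E2 (fun a a' => ip b (f a) (f a')) := by
    rw [hip]
    linarith
  have hvr : vr (fun _ : V => (1 : ℝ) / Fintype.card V) f b = R := by
    unfold vr
    rw [← Finset.mul_sum, hR]
    unfold E1
    rw [div_eq_inv_mul (∑ v, dist b (f v) ^ 2), ← one_div]
  have hdft : E2 (fun a a' => dft hX b (f a) (f a')) ≤ σ * R := by
    have h := dft_avg_le hX hw0 hw1 hb hσ (by rw [hvr, wsum_eq_E2]; exact hI)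
    rw [hvr, wsum_eq_E2] at h
    exact h
  exact ⟨hκ1, hκ2, hσ, hσ1, hησ, hR0, hb, hR, hs, hI, hdft⟩

/-- triangle inequality estimate when the first variance is much larger -/
theorem tri_avg (hK : KS adj p κ η K)
    (f g : V → X) {b b₁ : X} {R R₁ : ℝ}
    (hb₁ : IsBar (fun _ : V => (1 : ℝ) / Fintype.card V) g b₁)
    (hR : R = E1 (fun v => dist b (f v) ^ 2)) (hR₁ : R₁ = E1 (fun v => dist b₁ (g v) ^ 2))
    (hcard : 100 ≤ (Fintype.card V : ℝ)) :
    (99 / 100) * R₁ ≤ κ * (5 / 4 * Ee adj p (fun u v => dist (g u) (f v) ^ 2)) +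
      κ * (5 * R) := by
  classical
  have hV : (0 : ℝ) < Fintype.card V := card_pos'
  have h0 : K (fun u u' v => if u = u' then 0 else dist (g u) b ^ 2) =
      E2 (fun u u' => if u = u' then 0 else dist (g u) b ^ 2) :=
    hK.uu (fun u u' => if u = u' then 0 else dist (g u) b ^ 2) (fun u => by simp)
  have h1 : (99 / 100) * E1 (fun u => dist (g u) b ^ 2) ≤
      E2 (fun u u' => if u = u' then 0 else dist (g u) b ^ 2) := by
    unfold E1 E2
    have e1 : ∀ u : V, ∑ u' : V, (if u = u' then 0 else dist (g u) b ^ 2) =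
        ((Fintype.card V : ℝ) - 1) * dist (g u) b ^ 2 := by
      intro u
      have : ∀ u' : V, (if u = u' then (0 : ℝ) else dist (g u) b ^ 2) =
          dist (g u) b ^ 2 - (if u = u' then dist (g u) b ^ 2 else 0) := by
        intro u'
        split_ifs <;> ring
      rw [Finset.sum_congr rfl fun u' _ => this u', Finset.sum_sub_distrib, Finset.sum_const,
        Finset.card_univ, nsmul_eq_mul, Finset.sum_ite_eq]
      simp only [Finset.mem_univ, if_true]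
      ring
    rw [Finset.sum_congr rfl fun u _ => e1 u, ← Finset.mul_sum]
    have hS : 0 ≤ ∑ u, dist (g u) b ^ 2 := Finset.sum_nonneg fun _ _ => sq_nonneg _
    rw [← mul_div_assoc, div_le_div_iff₀ hV (by positivity)]
    have h2 : 99 / 100 * (Fintype.card V : ℝ) ≤ (Fintype.card V : ℝ) - 1 := by linarith
    have h3 := mul_le_mul_of_nonneg_right h2 (mul_nonneg hS hV.le)
    nlinarith
  have h2 : R₁ ≤ E1 (fun u => dist (g u) b ^ 2) := by
    have h := bar_E1 hb₁ b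
    rw [← hR₁] at h
    have := sq_nonneg (dist b₁ b)
    linarith
  have h3 : K (fun u u' v => if u = u' then 0 else dist (g u) b ^ 2) ≤
      K (fun u _ v => 5 / 4 * dist (g u) (f (v 0)) ^ 2 + 5 * dist b (f (v 0)) ^ 2) := by
    refine hK.mono _ _ fun u u' v => ?_
    have h4 := dist_triangle (g u) (f (v 0)) b
    rw [dist_comm (f (v 0)) b] at h4
    have h5 : dist (g u) b ^ 2 ≤ 5 / 4 * dist (g u) (f (v 0)) ^ 2 + 5 * dist b (f (v 0)) ^ 2 := by
      have h6 : dist (g u) b ^ 2 ≤ (dist (g u) (f (v 0)) + dist b (f (v 0))) ^ 2 :=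
        pow_le_pow_left₀ dist_nonneg h4 2
      nlinarith [sq_nonneg (dist (g u) (f (v 0)) - 4 * dist b (f (v 0)))]
    split_ifs
    · positivity
    · exact h5
  rw [hK.add (fun u _ v => 5 / 4 * dist (g u) (f (v 0)) ^ 2) (fun _ _ v => 5 * dist b (f (v 0)) ^ 2),
    hK.smul (5 / 4) (fun u _ v => dist (g u) (f (v 0)) ^ 2),
    hK.smul 5 (fun _ _ v => dist b (f (v 0)) ^ 2)] at h3
  have h4 := hK.edge (fun u v => dist (g u) (f v) ^ 2) 0 (fun _ _ => sq_nonneg _)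
  have h5 := hK.v1 (fun v => dist b (f v) ^ 2) 0 (fun _ => sq_nonneg _)
  rw [← hR] at h5
  rw [h0] at h3
  linarith

end Main

open Classical in
/-- the additive gap with given constants for one space -/
def Gap (X : Type u) [MetricSpace X] (c ε : ℝ) : Prop :=
  ∀ (V : Type) [Fintype V] (adj : V → V → Prop) (p : ℝ), QR adj p ε →
  ∀ (f₁ f₂ : V → X) (b₁ b₂ : X), IsBar (fun _ : V => (1 : ℝ) / Fintype.card V) f₁ b₁ →
    IsBar (fun _ : V => (1 : ℝ) / Fintype.card V) f₂ b₂ →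
    (1 + c) * ((E1 (fun v => dist b₁ (f₁ v) ^ 2) + E1 (fun v => dist b₂ (f₂ v) ^ 2)) / 2) ≤
      Ee adj p (fun u v => dist (f₁ u) (f₂ v) ^ 2)

/-- the additive gap from the impossibility of near-equality -/
theorem gap_of_ctx {X : Type u} [MetricSpace X] (hX : Cat X) {σ : ℝ} (hσ0 : 0 < σ)
    (hσ1 : σ ≤ 1 / 50000)
    (hF : ∀ (V : Type) [Fintype V] [Nonempty V] (f : V → X) (b : X),
      IsBar (fun _ : V => (1 : ℝ) / Fintype.card V) f b → ∀ R : ℝ,
      R = E1 (fun v => dist b (f v) ^ 2) → 0 < R →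
      ∀ (adj : V → V → Prop) (p κ η : ℝ) (K : (V → V → (Fin 3 → V) → ℝ) → ℝ)
        (hK : KS adj p κ η K) (g : V → X), Ctx hX hK f g b σ R → False) :
    Gap X (σ ^ 2 / 1000) (σ ^ 2 / 1000) := by
  classical
  obtain ⟨t, ht⟩ : ∃ t : ℝ, t = σ ^ 2 / 1000 := ⟨_, rfl⟩
  rw [← ht]
  have ht0 : 0 < t := by
    rw [ht]
    positivity
  have hσt : σ ^ 2 = 1000 * t := by
    rw [ht]
    ring
  have ht1 : t ≤ 1 / 1000 := by
    rw [ht]
    have : σ ^ 2 ≤ 1 := pow_le_one₀ hσ0.le (by linarith)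
    linarith
  intro V _ adj p hQR f₁ f₂ b₁ b₂ hb₁ hb₂
  have Q := hQR.qf (by linarith : t ≤ 1 / 20)
  have : Nonempty V := by
    have h := Q.n0
    exact Fintype.card_pos_iff.mp (by exact_mod_cast h)
  have hE0 : 0 ≤ Ee adj p (fun u v => dist (f₁ u) (f₂ v) ^ 2) := by
    have hp := Q.p0
    unfold Ee
    refine div_nonneg (Finset.sum_nonneg fun u _ => Finset.sum_nonneg fun v _ => ?_)
      (by positivity)
    split_ifs
    · exact sq_nonneg _
    · exact le_rfl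
  have hcard : 100 ≤ (Fintype.card V : ℝ) := by
    have h1 := hQR.big
    have h2 : (Fintype.card V : ℝ) * p ^ 2 ≤ Fintype.card V * 1 :=
      mul_le_mul_of_nonneg_left (pow_le_one₀ hQR.pos.le hQR.le_one) (Nat.cast_nonneg _)
    have h3 : t * (Fintype.card V * p ^ 2) ≤ 1 / 1000 * (Fintype.card V * p ^ 2) :=
      mul_le_mul_of_nonneg_right ht1 (by positivity)
    linarith
  obtain ⟨R₁, hR₁⟩ : ∃ R₁, R₁ = E1 (fun v => dist b₁ (f₁ v) ^ 2) := ⟨_, rfl⟩
  obtain ⟨R, hR⟩ : ∃ R, R = E1 (fun v => dist b₂ (f₂ v) ^ 2) := ⟨_, rfl⟩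
  rw [← hR₁, ← hR]
  have hR₁0 : 0 ≤ R₁ := by
    rw [hR₁]
    exact E1_nonneg fun _ => sq_nonneg _
  have hR0 : 0 ≤ R := by
    rw [hR]
    exact E1_nonneg fun _ => sq_nonneg _
  by_contra hcon
  push Not at hcon
  rcases lt_or_ge (99 * R) R₁ with hM | hM
  · have h1 := tri_avg (adj := adj) (p := p) Q.ks f₂ f₁ hb₁ hR hR₁ hcard
    obtain ⟨E, hE⟩ : ∃ E, E = Ee adj p (fun u v => dist (f₁ u) (f₂ v) ^ 2) := ⟨_, rfl⟩
    rw [← hE] at h1 hcon hE0
    have h2 : (1 + 8 * t) * (5 / 4 * E) ≤ (1 + 8 / 1000) * (5 / 4 * E) :=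
      mul_le_mul_of_nonneg_right (by linarith) (by positivity)
    have h3 : (1 + 8 * t) * (5 * R) ≤ (1 + 8 / 1000) * (5 * R) :=
      mul_le_mul_of_nonneg_right (by linarith) (by positivity)
    have h4 : (1 + t) * ((R₁ + R) / 2) ≤ (1 + 1 / 1000) * ((R₁ + R) / 2) :=
      mul_le_mul_of_nonneg_right (by linarith) (by positivity)
    linarith
  · have hRpos : 0 < R := by
      rcases hR0.eq_or_lt with h | h
      · exfalso
        rw [← h] at hM hcon
        have h1 : R₁ = 0 := by linarith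
        rw [h1] at hcon
        linarith
      · exact h
    have C := ctx_add (σ := σ) (M := 99) hX Q.ks (by linarith) (by linarith) (c := t)
      hσ0 (by linarith) (by nlinarith) ht0.le
      (by
        rw [hσt]
        nlinarith [mul_pos ht0 ht0, mul_pos (mul_pos ht0 ht0) ht0,
          mul_le_mul_of_nonneg_left ht1 ht0.le,
          mul_le_mul_of_nonneg_left ht1 (mul_pos ht0 ht0).le])
      (by
        rw [hσt]
        have h3 : 2 * (1 - 8 * t) ≤ 2 / (1 + 8 * t) := by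
          rw [le_div_iff₀ (by positivity)]
          nlinarith [mul_pos ht0 ht0]
        nlinarith [mul_pos ht0 ht0, mul_le_mul_of_nonneg_left ht1 ht0.le])
      f₂ f₁ hb₂ hb₁ hR hR₁ hRpos hM hcon.le
    exact hF V f₂ b₂ hb₂ R hR hRpos adj p _ _ _ Q.ks f₁ C

/-- the constant of the additive gap in dimension `n` -/
noncomputable def cst (n : ℕ) : ℝ := (1 / (50000 * ((n : ℝ) + 1) ^ 3)) ^ 2 / 1000

theorem cst_pos (n : ℕ) : 0 < cst n := by
  unfold cst
  positivity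

theorem cst_le (n : ℕ) : cst n ≤ 1 / 1000 := by
  unfold cst
  have hn0 : (0 : ℝ) ≤ n := Nat.cast_nonneg n
  have h1 : 1 / (50000 * ((n : ℝ) + 1) ^ 3) ≤ 1 := by
    rw [div_le_one (by positivity)]
    have : (1 : ℝ) ≤ ((n : ℝ) + 1) ^ 3 := one_le_pow₀ (by linarith)
    linarith
  have h2 : (1 / (50000 * ((n : ℝ) + 1) ^ 3)) ^ 2 ≤ 1 := pow_le_one₀ (by positivity) h1
  linarith

/-- **additive gap** in dimension `n` -/
theorem gap_cst (n : ℕ) (X : Type u) [MetricSpace X] [CompleteSpace X] (hX : Cat X)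
    (hJ : JungProp X n) : Gap X (cst n) (cst n) := by
  have hn0 : (0 : ℝ) ≤ n := Nat.cast_nonneg n
  obtain ⟨σ, hσ⟩ : ∃ σ : ℝ, σ = 1 / (50000 * ((n : ℝ) + 1) ^ 3) := ⟨_, rfl⟩
  have hσ0 : 0 < σ := by
    rw [hσ]
    positivity
  have hσ1 : σ ≤ 1 / 50000 := by
    rw [hσ]
    refine one_div_le_one_div_of_le (by norm_num) ?_
    have : (1 : ℝ) ≤ ((n : ℝ) + 1) ^ 3 := one_le_pow₀ (by linarith)
    linarith
  have hcst : cst n = σ ^ 2 / 1000 := by
    rw [hσ]
    rfl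
  rw [hcst]
  refine gap_of_ctx hX hσ0 hσ1 ?_
  intro V _ _ f b hb R hR hR0 adj p κ η K hK g C
  have hbar : HasBar X := fun ι _ w f hw0 hw1 => stmtBar X hX ι w f hw0 hw1
  have hmin : ∀ x, R ≤ E1 fun v => dist (f v) x ^ 2 := by
    intro x
    have h := bar_E1 hb x
    rw [← hR] at h
    have := sq_nonneg (dist b x)
    linarith
  have hJ4 : 2 ≤ 4 * (n + 1) := by omega
  have hgap := jung_gap hbar hJ hJ4 f hR0.le hmin
  exact num_contra n hR0 hσ C.fin hgap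

end Vale.Agent.P172.H783
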