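import Vale.Agent.P172.R2.H783.Gap
import Vale.Agent.P172.R2.H783.Defs

/-!
# P172: the gap for spaces with inner product tangent cones (helper783)
-/

namespace Vale.Agent.P172.H783

open Vale.Agent.P172 Filter

universe u

open Finset

/-- at a barycentre there is a logarithm with values in an inner product space -/
def LogProp (X : Type u) [MetricSpace X] : Prop :=
  ∀ (V : Type) [Fintype V] [Nonempty V] (f : V → X) (b : X),
    IsBar (fun _ : V => (1 : ℝ) / Fintype.card V) f b →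
    ∃ (H : Type u) (_ : NormedAddCommGroup H) (_ : InnerProductSpace ℝ H) (L : X → H),
      (∀ x y, ‖L x - L y‖ ≤ dist x y) ∧ (∀ x, ‖L x‖ = dist b x) ∧
      E2 (fun a a' => inner ℝ (L (f a)) (L (f a'))) ≤ 0

section Main

variable {X : Type u} [MetricSpace X] {hX : Cat X} {V : Type} [Fintype V] [Nonempty V]
  {adj : V → V → Prop} {p κ η : ℝ} {K : (V → V → (Fin 3 → V) → ℝ) → ℝ}
  {hK : KS adj p κ η K} {f g : V → X} {b : X} {σ R : ℝ}

/-- no near-equality when there is a logarithm with values in an inner product space -/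
theorem ctx_false (C : Ctx hX hK f g b σ R) (hσ : σ ≤ 1 / 50000)
    {H : Type u} [NormedAddCommGroup H] [InnerProductSpace ℝ H] (L : X → H)
    (h1 : ∀ x y, ‖L x - L y‖ ≤ dist x y) (h2 : ∀ x, ‖L x‖ = dist b x)
    (h3 : E2 (fun a a' => inner ℝ (L (f a)) (L (f a'))) ≤ 0) : False := by
  have hκ0 : 0 < κ := by linarith [C.κ1]
  have hR := C.R0
  have hσ0 := C.σ0
  -- the deficit of the scalar product
  obtain ⟨G, hG⟩ : ∃ G : V → V → ℝ, G = fun a a' => inner ℝ (L (f a)) (L (f a')) -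
      ip b (f a) (f a') := ⟨_, rfl⟩
  have hsq : ∀ x y : X, ‖L x - L y‖ ^ 2 =
      dist x y ^ 2 - 2 * (inner ℝ (L x) (L y) - ip b x y) := by
    intro x y
    rw [norm_sub_sq_real, h2, h2]
    unfold ip
    ring
  have hG0 : ∀ a a', 0 ≤ G a a' := by
    intro a a'
    rw [hG]
    have h4 := hsq (f a) (f a')
    have h5 : ‖L (f a) - L (f a')‖ ^ 2 ≤ dist (f a) (f a') ^ 2 :=
      pow_le_pow_left₀ (norm_nonneg _) (h1 _ _) 2
    simp only
    linarith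
  have hGd : ∀ a, G a a = 0 := by
    intro a
    have h4 := hsq (f a) (f a)
    rw [sub_self, norm_zero, dist_self] at h4
    rw [hG]
    simp only
    linarith
  have hEG : E2 G ≤ σ ^ 2 * R := by
    rw [hG, E2_sub]
    have := C.hI
    linarith
  have hKG : ∀ i j : Fin 3, i ≠ j → K (fun _ _ v => G (v i) (v j)) ≤ 2 * (σ ^ 2 * R) := by
    intro i j hij
    have h4 := hK.vv_le G i j hij hG0 hGd
    have h5 : κ * E2 G ≤ 2 * (σ ^ 2 * R) :=
      mul_le_mul C.κ2 hEG (E2_nonneg hG0) (by norm_num)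
    linarith
  -- the logarithm of a midpoint
  have hmid : ∀ a a', ‖L (mp hX (f a) (f a')) - (1 / 2 : ℝ) • (L (f a) + L (f a'))‖ ^ 2 ≤
      G a a' / 2 := by
    intro a a'
    obtain ⟨m, hm⟩ : ∃ m, m = mp hX (f a) (f a') := ⟨_, rfl⟩
    have h4 : ‖L m - L (f a)‖ ≤ dist (f a) (f a') / 2 := by
      refine (h1 _ _).trans (le_of_eq ?_)
      rw [hm, dist_comm, dist_mp_left]
    have h5 : ‖L m - L (f a')‖ ≤ dist (f a) (f a') / 2 := by
      refine (h1 _ _).trans (le_of_eq ?_)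
      rw [hm, dist_mp_right]
    have h6 : ‖L m - L (f a)‖ ^ 2 ≤ (dist (f a) (f a') / 2) ^ 2 :=
      pow_le_pow_left₀ (norm_nonneg _) h4 2
    have h7 : ‖L m - L (f a')‖ ^ 2 ≤ (dist (f a) (f a') / 2) ^ 2 :=
      pow_le_pow_left₀ (norm_nonneg _) h5 2
    have h8 := hsq (f a) (f a')
    have h9 : ‖L m - (1 / 2 : ℝ) • (L (f a) + L (f a'))‖ ^ 2 =
        ‖L m - L (f a)‖ ^ 2 / 2 + ‖L m - L (f a')‖ ^ 2 / 2 - ‖L (f a) - L (f a')‖ ^ 2 / 4 := by
      have e1 : L m - (1 / 2 : ℝ) • (L (f a) + L (f a')) =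
          (1 / 2 : ℝ) • ((L m - L (f a)) + (L m - L (f a'))) := by module
      have e2 : L (f a) - L (f a') = (L m - L (f a')) - (L m - L (f a)) := by abel
      rw [e1, e2, norm_smul, mul_pow, norm_add_sq_real, norm_sub_sq_real (L m - L (f a')),
        real_inner_comm (L m - L (f a)) (L m - L (f a'))]
      norm_num
      ring
    rw [← hm, h9, h8, hG]
    simp only
    linarith
  -- three common neighbours
  have hpt : ∀ (u u' : V) (v : Fin 3 → V), ‖L (f (v 1)) - L (f (v 2))‖ ^ 2 ≤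
      (8 * G (v 0) (v 1) + 8 * G (v 0) (v 2)) +
      (16 * dist (mp hX (g u) (g u')) (mp hX (f (v 0)) (f (v 1))) ^ 2 +
        16 * dist (mp hX (g u) (g u')) (mp hX (f (v 0)) (f (v 2))) ^ 2) := by
    intro u u' v
    obtain ⟨m, hm⟩ : ∃ m, m = mp hX (g u) (g u') := ⟨_, rfl⟩
    obtain ⟨m₁, hm₁⟩ : ∃ m, m = mp hX (f (v 0)) (f (v 1)) := ⟨_, rfl⟩
    obtain ⟨m₂, hm₂⟩ : ∃ m, m = mp hX (f (v 0)) (f (v 2)) := ⟨_, rfl⟩
    have h4 := hmid (v 0) (v 1)
    have h5 := hmid (v 0) (v 2)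
    rw [← hm₁] at h4
    rw [← hm₂] at h5
    rw [← hm, ← hm₁, ← hm₂]
    obtain ⟨P, hP⟩ : ∃ P, P = L m₁ - (1 / 2 : ℝ) • (L (f (v 0)) + L (f (v 1))) := ⟨_, rfl⟩
    obtain ⟨P', hP'⟩ : ∃ P, P = L m₂ - (1 / 2 : ℝ) • (L (f (v 0)) + L (f (v 2))) := ⟨_, rfl⟩
    rw [← hP] at h4
    rw [← hP'] at h5
    have e : L (f (v 1)) - L (f (v 2)) = (2 : ℝ) • ((L m₁ - L m) - (L m₂ - L m) - P + P') := by
      rw [hP, hP']
      module
    have h6 : ‖L m₁ - L m‖ ^ 2 ≤ dist m m₁ ^ 2 := by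
      rw [dist_comm]
      exact pow_le_pow_left₀ (norm_nonneg _) (h1 _ _) 2
    have h7 : ‖L m₂ - L m‖ ^ 2 ≤ dist m m₂ ^ 2 := by
      rw [dist_comm]
      exact pow_le_pow_left₀ (norm_nonneg _) (h1 _ _) 2
    have h8 : ‖(L m₁ - L m) - (L m₂ - L m) - P + P'‖ ≤
        ‖L m₁ - L m‖ + ‖L m₂ - L m‖ + ‖P‖ + ‖P'‖ := by
      refine (norm_add_le _ _).trans ?_
      have h9 := norm_sub_le ((L m₁ - L m) - (L m₂ - L m)) P
      have h10 := norm_sub_le (L m₁ - L m) (L m₂ - L m)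
      linarith
    have h9 : ‖(L m₁ - L m) - (L m₂ - L m) - P + P'‖ ^ 2 ≤
        (‖L m₁ - L m‖ + ‖L m₂ - L m‖ + ‖P‖ + ‖P'‖) ^ 2 :=
      pow_le_pow_left₀ (norm_nonneg _) h8 2
    have h10 : ∀ α β γ δ : ℝ, (α + β + γ + δ) ^ 2 ≤ 4 * (α ^ 2 + β ^ 2 + γ ^ 2 + δ ^ 2) := by
      intro α β γ δ
      nlinarith [sq_nonneg (α - β), sq_nonneg (α - γ), sq_nonneg (α - δ), sq_nonneg (β - γ),
        sq_nonneg (β - δ), sq_nonneg (γ - δ)]
    have h11 := h10 ‖L m₁ - L m‖ ‖L m₂ - L m‖ ‖P‖ ‖P'‖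
    have e4 : ‖(2 : ℝ)‖ ^ 2 = 4 := by norm_num
    rw [e, norm_smul, mul_pow, e4]
    linarith
  have h4 := hK.mono (fun _ _ v => ‖L (f (v 1)) - L (f (v 2))‖ ^ 2) _ hpt
  rw [hK.add (fun _ _ v => 8 * G (v 0) (v 1) + 8 * G (v 0) (v 2)) (fun u u' v =>
      16 * dist (mp hX (g u) (g u')) (mp hX (f (v 0)) (f (v 1))) ^ 2 +
        16 * dist (mp hX (g u) (g u')) (mp hX (f (v 0)) (f (v 2))) ^ 2),
    hK.add (fun _ _ v => 8 * G (v 0) (v 1)) (fun _ _ v => 8 * G (v 0) (v 2)),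
    hK.add (fun u u' v => 16 * dist (mp hX (g u) (g u')) (mp hX (f (v 0)) (f (v 1))) ^ 2)
      (fun u u' v => 16 * dist (mp hX (g u) (g u')) (mp hX (f (v 0)) (f (v 2))) ^ 2),
    hK.smul 8 (fun _ _ v => G (v 0) (v 1)), hK.smul 8 (fun _ _ v => G (v 0) (v 2)),
    hK.smul 16 (fun u u' v => dist (mp hX (g u) (g u')) (mp hX (f (v 0)) (f (v 1))) ^ 2),
    hK.smul 16 (fun u u' v => dist (mp hX (g u) (g u')) (mp hX (f (v 0)) (f (v 2))) ^ 2)] at h4
  have h5 := hKG 0 1 (by decide)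
  have h6 := hKG 0 2 (by decide)
  have h7 := C.hs 0 1 (by decide)
  have h8 := C.hs 0 2 (by decide)
  have h9 := hK.vv_ge (fun a a' => ‖L (f a) - L (f a')‖ ^ 2) 1 2 (by decide)
    (fun _ _ => sq_nonneg _) (fun a => by rw [sub_self, norm_zero]; norm_num)
  have h10 : E2 (fun a a' => ‖L (f a) - L (f a')‖ ^ 2) =
      2 * R - 2 * E2 (fun a a' => inner ℝ (L (f a)) (L (f a'))) := by
    have e : (fun a a' => ‖L (f a) - L (f a')‖ ^ 2) = fun a a' =>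
        (dist b (f a) ^ 2 + dist b (f a') ^ 2) - 2 * inner ℝ (L (f a)) (L (f a')) := by
      funext a a'
      rw [norm_sub_sq_real, h2, h2]
      ring
    rw [e, E2_sub, E2_add, E2_mul, E2_left (fun a => dist b (f a) ^ 2),
      E2_right (fun a => dist b (f a) ^ 2), ← C.Req]
    ring
  have h11 : K (fun _ _ v => ‖L (f (v 1)) - L (f (v 2))‖ ^ 2) ≤ 64 * (σ ^ 2 * R) := by linarith
  have h12 : κ * K (fun _ _ v => ‖L (f (v 1)) - L (f (v 2))‖ ^ 2) ≤ 2 * (64 * (σ ^ 2 * R)) :=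
    mul_le_mul C.κ2 h11 (hK.nonneg (fun _ _ v => ‖L (f (v 1)) - L (f (v 2))‖ ^ 2)
      fun _ _ _ => sq_nonneg _) (by norm_num)
  have h13 : σ ^ 2 * R ≤ 1 / 50000 * R := by
    refine mul_le_mul_of_nonneg_right ?_ hR.le
    have : σ ^ 2 ≤ σ * 1 := by
      rw [sq]
      exact mul_le_mul_of_nonneg_left C.σ1 hσ0.le
    linarith
  linarith

end Main

/-- **gap for spaces with logarithms** -/
theorem gap_log {X : Type u} [MetricSpace X] (hX : Cat X) (hL : LogProp X) (n : ℕ) :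
    Gap X (cst n) (cst n) := by
  have hn0 : (0 : ℝ) ≤ n := Nat.cast_nonneg n
  obtain ⟨σ, hσ⟩ : ∃ σ : ℝ, σ = 1 / (50000 * ((n : ℝ) + 1) ^ 3) := ⟨_, rfl⟩
  have hσ0 : 0 < σ := by
    rw [hσ]
    positivity
  have hσ1 : σ ≤ 1 / 50000 := by
    rw [hσ]
    refine one_div_le_one_div_of_le (by norm_num) ?_
    have : (1 : ℝ) ≤ ((n : ℝ) + 1) ^ 3 := one_le_pow₀ (by linarith)
    linarith
  have hcst : cst n = σ ^ 2 / 1000 := by
    rw [hσ]
    rfl
  rw [hcst]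
  refine gap_of_ctx hX hσ0 hσ1 ?_
  intro V _ _ f b hb R hR hR0
  obtain ⟨H, _, _, L, h1, h2, h3⟩ := hL V f b hb
  exact fun adj p κ η K hK g C => ctx_false C hσ1 L h1 h2 h3

end Vale.Agent.P172.H783
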