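import Vale.Agent.P172.R2.H783.Gap

/-!
# P172: the additive gap passes to subspaces of `ℓ²`-products (helper783)
-/

namespace Vale.Agent.P172.H783

open Vale.Agent.P172

universe u v w

open Finset

section Coord

variable {X : Type u} [MetricSpace X] {I : Type v} {Y : I → Type w} [∀ i, MetricSpace (Y i)]
  {π : ∀ i, X → Y i}

theorem coord_aux {t A B : ℝ} (ht0 : 0 < t) (ht1 : t < 1) :
    A ^ 2 / t + B ^ 2 / (1 - t) - (A + B) ^ 2 =
      1 / (t * (1 - t)) * ((1 - t) * A - t * B) ^ 2 := by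
  have h1 : 1 - t ≠ 0 := by linarith
  have h0 : t ≠ 0 := ht0.ne'
  field_simp
  ring

/-- the coordinates of a point on a geodesic are points on geodesics -/
theorem coord_dist (hπ : ∀ x y, HasSum (fun i => dist (π i x) (π i y) ^ 2) (dist x y ^ 2))
    {x y z : X} {t : ℝ} (ht0 : 0 < t) (ht1 : t < 1) (h1 : dist x z = t * dist x y)
    (h2 : dist z y = (1 - t) * dist x y) (i : I) :
    dist (π i x) (π i z) = t * dist (π i x) (π i y) ∧
      dist (π i z) (π i y) = (1 - t) * dist (π i x) (π i y) := by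
  have ht1' : 0 < 1 - t := by linarith
  have hs := (((hπ x z).div_const t).add ((hπ z y).div_const (1 - t))).sub (hπ x y)
  have e : dist x z ^ 2 / t + dist z y ^ 2 / (1 - t) - dist x y ^ 2 = 0 := by
    rw [h1, h2]
    field_simp
    ring
  rw [e] at hs
  have hnn : ∀ i, 0 ≤ dist (π i x) (π i z) ^ 2 / t + dist (π i z) (π i y) ^ 2 / (1 - t) -
      dist (π i x) (π i y) ^ 2 := by
    intro i
    have h3 := coord_aux (A := dist (π i x) (π i z)) (B := dist (π i z) (π i y)) ht0 ht1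
    have h4 : dist (π i x) (π i y) ^ 2 ≤
        (dist (π i x) (π i z) + dist (π i z) (π i y)) ^ 2 :=
      pow_le_pow_left₀ dist_nonneg (dist_triangle _ _ _) 2
    have h5 : 0 ≤ 1 / (t * (1 - t)) *
        ((1 - t) * dist (π i x) (π i z) - t * dist (π i z) (π i y)) ^ 2 := by positivity
    linarith
  have h0 := congrFun ((hasSum_zero_iff_of_nonneg hnn).mp hs) i
  simp only [Pi.zero_apply] at h0
  have h3 := coord_aux (A := dist (π i x) (π i z)) (B := dist (π i z) (π i y)) ht0 ht1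
  have h4 : dist (π i x) (π i y) ^ 2 ≤
      (dist (π i x) (π i z) + dist (π i z) (π i y)) ^ 2 :=
    pow_le_pow_left₀ dist_nonneg (dist_triangle _ _ _) 2
  have h5 : 0 ≤ 1 / (t * (1 - t)) *
      ((1 - t) * dist (π i x) (π i z) - t * dist (π i z) (π i y)) ^ 2 := by positivity
  have h6 : 1 / (t * (1 - t)) *
      ((1 - t) * dist (π i x) (π i z) - t * dist (π i z) (π i y)) ^ 2 = 0 := by linarith
  have h7 : (1 - t) * dist (π i x) (π i z) - t * dist (π i z) (π i y) = 0 := by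
    have h8 : 1 / (t * (1 - t)) ≠ 0 := by positivity
    have h9 := (mul_eq_zero.mp h6).resolve_left h8
    exact pow_eq_zero_iff (two_ne_zero) |>.mp h9
  have h8 : dist (π i x) (π i y) ^ 2 =
      (dist (π i x) (π i z) + dist (π i z) (π i y)) ^ 2 := by linarith
  have h9 : dist (π i x) (π i y) = dist (π i x) (π i z) + dist (π i z) (π i y) :=
    (pow_left_inj₀ dist_nonneg (add_nonneg dist_nonneg dist_nonneg) two_ne_zero).mp h8
  constructor
  · rw [h9]
    linarith
  · rw [h9]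
    linarith

/-- the CAT(0) inequality at the coordinates of a point on a geodesic -/
theorem coord_cat (hY : ∀ i, Cat (Y i))
    (hπ : ∀ x y, HasSum (fun i => dist (π i x) (π i y) ^ 2) (dist x y ^ 2))
    {x y z : X} {t : ℝ} (ht0 : 0 < t) (ht1 : t < 1) (h1 : dist x z = t * dist x y)
    (h2 : dist z y = (1 - t) * dist x y) (i : I) (a : Y i) :
    dist a (π i z) ^ 2 ≤ (1 - t) * dist a (π i x) ^ 2 + t * dist a (π i y) ^ 2 -
      t * (1 - t) * dist (π i x) (π i y) ^ 2 := by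
  obtain ⟨h3, h4⟩ := coord_dist hπ ht0 ht1 h1 h2 i
  obtain ⟨m, hm⟩ := hY i (π i x) (π i y) t ⟨ht0.le, ht1.le⟩
  have h5 := hm (π i z)
  rw [dist_comm (π i z) (π i x), h3, h4] at h5
  have h6 : dist (π i z) m ^ 2 ≤ 0 := by
    refine h5.trans (le_of_eq ?_)
    ring
  have h7 : dist (π i z) m = 0 := by
    have := sq_nonneg (dist (π i z) m)
    exact pow_eq_zero_iff (two_ne_zero) |>.mp (le_antisymm h6 this)
  rw [dist_eq_zero.mp h7]
  exact hm a

variable {V : Type} [Fintype V] [Nonempty V]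

theorem hasSum_E1 {φ : I → V → ℝ} {s : V → ℝ} (h : ∀ v, HasSum (fun i => φ i v) (s v)) :
    HasSum (fun i => E1 (φ i)) (E1 s) := by
  unfold E1
  exact (hasSum_sum fun v _ => h v).div_const _

/-- the variance in `X` is at most the sum of the variances of the coordinates -/
theorem bar_prod (hX : Cat X) (hY : ∀ i, Cat (Y i))
    (hπ : ∀ x y, HasSum (fun i => dist (π i x) (π i y) ^ 2) (dist x y ^ 2))
    (f : V → X) {b : X} (hb : IsBar (fun _ : V => (1 : ℝ) / Fintype.card V) f b)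
    (a : ∀ i, Y i)
    (ha : ∀ i, IsBar (fun _ : V => (1 : ℝ) / Fintype.card V) (fun v => π i (f v)) (a i)) :
    ∃ S, HasSum (fun i => E1 fun v => dist (a i) (π i (f v)) ^ 2) S ∧
      E1 (fun v => dist b (f v) ^ 2) ≤ S := by
  classical
  have hVpos : (0 : ℝ) < Fintype.card V := card_pos'
  obtain ⟨v₀⟩ := (inferInstance : Nonempty V)
  -- summability of the variances
  have hsum1 : Summable fun i => E1 fun v => dist (a i) (π i (f v)) ^ 2 := by
    refine Summable.of_nonneg_of_le (fun i => E1_nonneg fun _ => sq_nonneg _) (fun i => ?_)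
      (hasSum_E1 (V := V) (fun v => hπ (f v) (f v₀))).summable
    have h := bar_E1 (ha i) (π i (f v₀))
    have := sq_nonneg (dist (a i) (π i (f v₀)))
    linarith
  -- summability of the distances to points of `X`
  have hle1 : ∀ i, ∀ v, dist (a i) (π i (f v)) ^ 2 ≤
      Fintype.card V * E1 fun v => dist (a i) (π i (f v)) ^ 2 := by
    intro i v
    unfold E1
    rw [mul_div_cancel₀ _ hVpos.ne']
    exact Finset.single_le_sum (f := fun v => dist (a i) (π i (f v)) ^ 2)
      (fun _ _ => sq_nonneg _) (Finset.mem_univ v)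
  have hsum2 : ∀ x : X, Summable fun i => dist (a i) (π i x) ^ 2 := by
    intro x
    refine Summable.of_nonneg_of_le (fun i => sq_nonneg _) (fun i => ?_)
      (((hsum1.mul_left (Fintype.card V : ℝ)).mul_left 2).add ((hπ (f v₀) x).summable.mul_left 2))
    have h1 := dist_triangle (a i) (π i (f v₀)) (π i x)
    have h2 : dist (a i) (π i x) ^ 2 ≤ (dist (a i) (π i (f v₀)) + dist (π i (f v₀)) (π i x)) ^ 2 :=
      pow_le_pow_left₀ dist_nonneg h1 2
    have h3 := hle1 i v₀
    nlinarith [sq_nonneg (dist (a i) (π i (f v₀)) - dist (π i (f v₀)) (π i x))]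
  obtain ⟨φ, hφ⟩ : ∃ φ : X → ℝ, ∀ x, HasSum (fun i => dist (a i) (π i x) ^ 2) (φ x) :=
    ⟨fun x => ∑' i, dist (a i) (π i x) ^ 2, fun x => (hsum2 x).hasSum⟩
  have hφ0 : ∀ x, 0 ≤ φ x := fun x => (hφ x).nonneg fun i => sq_nonneg _
  have hS : HasSum (fun i => E1 fun v => dist (a i) (π i (f v)) ^ 2) (E1 fun v => φ (f v)) :=
    hasSum_E1 fun v => hφ (f v)
  refine ⟨_, hS, ?_⟩
  -- convexity of `φ`
  have hconv : ∀ x y : X, ∀ t : ℝ, 0 < t → t < 1 → ∃ z, φ z ≤
      (1 - t) * φ x + t * φ y - t * (1 - t) * dist x y ^ 2 := by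
    intro x y t ht0 ht1
    refine ⟨pt hX x y t, ?_⟩
    have h1 : dist x (pt hX x y t) = t * dist x y := dist_pt_left hX x y ht0.le ht1.le
    have h2 : dist (pt hX x y t) y = (1 - t) * dist x y := dist_pt_right hX x y ht0.le ht1.le
    have h3 := ((((hφ x).mul_left (1 - t)).add ((hφ y).mul_left t)).sub
      ((hπ x y).mul_left (t * (1 - t))))
    exact hasSum_le (fun i => coord_cat hY hπ ht0 ht1 h1 h2 i (a i)) (hφ _) h3
  -- approximate minimum
  have hne : Nonempty X := ⟨f v₀⟩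
  obtain ⟨m, hm⟩ : ∃ m, m = ⨅ x, φ x := ⟨_, rfl⟩
  have hbdd : BddBelow (Set.range φ) := ⟨0, by rintro _ ⟨x, rfl⟩; exact hφ0 x⟩
  have hmle : ∀ x, m ≤ φ x := fun x => hm ▸ ciInf_le hbdd x
  have key : ∀ t : ℝ, 0 < t → t < 1 →
      (1 - t) * E1 (fun v => dist b (f v) ^ 2) ≤ (E1 fun v => φ (f v)) + t := by
    intro t ht0 ht1
    obtain ⟨x, hx⟩ : ∃ x, φ x < m + t ^ 2 := by
      rw [hm]
      exact exists_lt_of_ciInf_lt (by linarith [sq_pos_of_pos ht0])
    have h1 : ∀ v, (1 - t) * dist x (f v) ^ 2 ≤ φ (f v) + t := by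
      intro v
      obtain ⟨z, hz⟩ := hconv x (f v) t ht0 ht1
      have h2 := hmle z
      have h3 := hφ0 x
      have h4 : t * ((1 - t) * dist x (f v) ^ 2) ≤ t * (φ (f v) + t) := by nlinarith
      exact le_of_mul_le_mul_left h4 ht0
    have h2 := E1_mono h1
    rw [E1_mul, E1_add, E1_const] at h2
    have h3 : E1 (fun v => dist b (f v) ^ 2) ≤ E1 fun v => dist x (f v) ^ 2 := by
      have h := bar_E1 hb x
      simp only [dist_comm (f _) x] at h
      have := sq_nonneg (dist b x)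
      linarith
    have h4 := mul_le_mul_of_nonneg_left h3 (by linarith : 0 ≤ 1 - t)
    linarith
  -- limit
  obtain ⟨r, hr⟩ : ∃ r, r = E1 (fun v => dist b (f v) ^ 2) := ⟨_, rfl⟩
  obtain ⟨S, hS'⟩ : ∃ S, S = E1 fun v => φ (f v) := ⟨_, rfl⟩
  rw [← hr, ← hS'] at key ⊢
  have hr0 : 0 ≤ r := by
    rw [hr]
    exact E1_nonneg fun _ => sq_nonneg _
  by_contra hcon
  push Not at hcon
  obtain ⟨t, ht⟩ : ∃ t : ℝ, t = min (1 / 2) ((r - S) / (2 * (r + 1))) := ⟨_, rfl⟩
  have ht0 : 0 < t := by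
    rw [ht]
    refine lt_min (by norm_num) (div_pos (by linarith) (by linarith))
  have ht1 : t < 1 := by
    rw [ht]
    exact (min_le_left _ _).trans_lt (by norm_num)
  have h1 := key t ht0 ht1
  have h2 : t * (2 * (r + 1)) ≤ r - S := by
    have h3 : t ≤ (r - S) / (2 * (r + 1)) := by
      rw [ht]
      exact min_le_right _ _
    rwa [le_div_iff₀ (by linarith)] at h3
  nlinarith

end Coord

/-- **the additive gap passes to subspaces of `ℓ²`-products** -/
theorem gap_prod {X : Type u} [MetricSpace X] {I : Type v} {Y : I → Type w}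
    [∀ i, MetricSpace (Y i)] [∀ i, CompleteSpace (Y i)] {π : ∀ i, X → Y i} (hX : Cat X)
    (hY : ∀ i, Cat (Y i)) {c ε : ℝ} (hc : 0 ≤ c) (hε : ε ≤ 1 / 20)
    (hG : ∀ i, Gap (Y i) c ε)
    (hπ : ∀ x y, HasSum (fun i => dist (π i x) (π i y) ^ 2) (dist x y ^ 2)) : Gap X c ε := by
  classical
  intro V _ adj p hQR f₁ f₂ b₁ b₂ hb₁ hb₂
  have Q := hQR.qf hε
  have : Nonempty V := by
    have h := Q.n0
    exact Fintype.card_pos_iff.mp (by exact_mod_cast h)
  have hw1 : ∑ _v : V, (1 : ℝ) / Fintype.card V = 1 := by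
    have hV : (Fintype.card V : ℝ) ≠ 0 := (card_pos' (V := V)).ne'
    rw [Finset.sum_const, Finset.card_univ, nsmul_eq_mul]
    field_simp
  have hw0 : ∀ _v : V, (0 : ℝ) ≤ 1 / Fintype.card V := fun _ => by positivity
  choose a₁ ha₁ using fun i => stmtBar (Y i) (hY i) V (fun _ => 1 / Fintype.card V)
    (fun v => π i (f₁ v)) hw0 hw1
  choose a₂ ha₂ using fun i => stmtBar (Y i) (hY i) V (fun _ => 1 / Fintype.card V)
    (fun v => π i (f₂ v)) hw0 hw1
  obtain ⟨S₁, hS₁, h1⟩ := bar_prod hX hY hπ f₁ hb₁ a₁ ha₁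
  obtain ⟨S₂, hS₂, h2⟩ := bar_prod hX hY hπ f₂ hb₂ a₂ ha₂
  have hE : HasSum (fun i => Ee adj p (fun u v => dist (π i (f₁ u)) (π i (f₂ v)) ^ 2))
      (Ee adj p (fun u v => dist (f₁ u) (f₂ v) ^ 2)) := by
    unfold Ee
    refine (hasSum_sum fun u _ => hasSum_sum fun v _ => ?_).div_const _
    split_ifs
    · exact hπ _ _
    · exact hasSum_zero
  have h3 := hasSum_le (fun i => hG i V adj p hQR (fun v => π i (f₁ v)) (fun v => π i (f₂ v))
    (a₁ i) (a₂ i) (ha₁ i) (ha₂ i)) (((hS₁.add hS₂).div_const 2).mul_left (1 + c)) hE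
  refine le_trans ?_ h3
  exact mul_le_mul_of_nonneg_left (by linarith) (by linarith)

end Vale.Agent.P172.H783
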